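import Vale.Agent.P146.Crit.Gibbs

/-!
# High temperature: free energy and vanishing overlap
-/

namespace Vale.Agent.P146.Crit

open MeasureTheory ProbabilityTheory Finset Real Function Filter
open Vale.Agent.P150 (gauss PolyGrowth)
open scoped Topology

variable {n : ℕ}

lemma gaussianReal_first : ∫ x, x ∂gaussianReal 0 1 = 0 := integral_id_gaussianReal

lemma gaussianReal_second : ∫ x, x ^ 2 ∂gaussianReal 0 1 = 1 := by
  have h : ∫ x, x * x ∂gaussianReal 0 1 = ∫ _x, (1 : ℝ) ∂gaussianReal 0 1 :=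
    Vale.Agent.P150.ibp_real (A := 1) (m := 1) (fun x => hasDerivAt_id x) continuous_const
      (fun x => by simp) (fun x => by simp [pow_one])
  simp only [sq, h]
  simp

lemma integrable_sq' : Integrable (fun x : ℝ => x ^ 2) (gaussianReal 0 1) := by
  refine (Vale.Agent.P150.integrable_one_add_abs_pow 2).mono' (by fun_prop)
    (ae_of_all _ fun x => ?_)
  rw [Real.norm_eq_abs, abs_pow]
  exact pow_le_pow_left₀ (abs_nonneg _) (by linarith) 2

/-- Variance of a function that is Lipschitz in the `ℓ¹` distance. -/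
lemma var_lip : ∀ (N : ℕ) (f : (Fin N → ℝ) → ℝ) (L : ℝ), 0 ≤ L → Continuous f →
    (∀ g h, |f g - f h| ≤ L * ∑ i, |g i - h i|) →
    ∫ g, (f g - ∫ h, f h ∂gauss (Fin N)) ^ 2 ∂gauss (Fin N) ≤ 2 * N * L ^ 2
  | 0, f, L, _, _, _ => by
    have : ∀ g, f g = f (fun i => i.elim0) := fun g => congrArg f (funext fun i => i.elim0)
    simp [this]
  | N + 1, f, L, hL, hc, hf => by
    set μN := gauss (Fin N) with hμN
    set γ := gaussianReal 0 1
    have grow : ∀ {M : ℕ} {φ : (Fin M → ℝ) → ℝ}, (∀ g h, |φ g - φ h| ≤ L * ∑ i, |g i - h i|) →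
        PolyGrowth φ := fun {M φ} h => by
      refine ⟨|φ 0| + L, 1, fun g => ?_⟩
      have h1 := h g 0
      simp only [Pi.zero_apply, sub_zero] at h1
      have h2 := abs_sub_abs_le_abs_sub (φ g) (φ 0)
      have h3 : (0 : ℝ) ≤ ∑ i, |g i| := sum_nonneg fun i _ => abs_nonneg _
      have := mul_nonneg (abs_nonneg (φ 0)) h3
      rw [pow_one]; linarith
    have hfi : Integrable f (gauss (Fin (N + 1))) := (grow hf).integrable hc
    set m := ∫ h, f h ∂gauss (Fin (N + 1))
    have hsq : Integrable (fun g => (f g - m) ^ 2) (gauss (Fin (N + 1))) := by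
      refine PolyGrowth.integrable ?_ ((hc.sub continuous_const).pow 2)
      obtain ⟨A, d, hA⟩ := grow hf
      refine ⟨(A + |m|) ^ 2, d * 2, fun g => ?_⟩
      have h3 : (0 : ℝ) ≤ ∑ i, |g i| := sum_nonneg fun i _ => abs_nonneg _
      have hp : (1 : ℝ) ≤ (1 + ∑ i, |g i|) ^ d := one_le_pow₀ (by linarith)
      rw [abs_pow, pow_mul, ← mul_pow]
      refine pow_le_pow_left₀ (abs_nonneg _) ((abs_sub _ _).trans ?_) 2
      nlinarith [hA g, abs_nonneg m]
    have hlipc : ∀ x, ∀ g h : Fin N → ℝ,
        |f (Fin.cons x g) - f (Fin.cons x h)| ≤ L * ∑ i, |g i - h i| := fun x g h => by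
      refine (hf _ _).trans (le_of_eq ?_)
      simp [Fin.sum_univ_succ]
    have hcc : ∀ x : ℝ, Continuous fun g : Fin N → ℝ => f (Fin.cons x g) := fun x =>
      hc.comp (by fun_prop)
    set u : ℝ → ℝ := fun x => ∫ g, f (Fin.cons x g) ∂μN
    have hi : ∀ x, Integrable (fun g => f (Fin.cons x g)) μN := fun x =>
      (grow (hlipc x)).integrable (hcc x)
    have hu : ∀ x y, |u x - u y| ≤ L * |x - y| := fun x y => by
      simp only [u]
      rw [← integral_sub (hi x) (hi y), ← Real.norm_eq_abs]
      refine (norm_integral_le_of_norm_le_const (C := L * |x - y|)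
        (ae_of_all _ fun g => ?_)).trans_eq (by simp)
      refine (Real.norm_eq_abs _).trans_le ((hf _ _).trans (le_of_eq ?_))
      simp [Fin.sum_univ_succ]
    have hmp := measurePreserving_piFinSuccAbove (fun _ : Fin (N + 1) => γ) 0
    have hF : ∀ {φ : (Fin (N + 1) → ℝ) → ℝ}, Continuous φ → Integrable φ (gauss (Fin (N + 1))) →
        Integrable (fun p : ℝ × (Fin N → ℝ) => φ (Fin.cons p.1 p.2)) (γ.prod μN) ∧
        ∫ g, φ g ∂gauss (Fin (N + 1)) = ∫ x, ∫ g, φ (Fin.cons x g) ∂μN ∂γ := fun {φ} hφc hφ => by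
      have e : (fun g : Fin (N + 1) → ℝ => φ g) = (fun p : ℝ × (Fin N → ℝ) => φ (Fin.cons p.1 p.2))
          ∘ (MeasurableEquiv.piFinSuccAbove (fun _ : Fin (N + 1) => ℝ) 0) := by
        funext g
        simp [MeasurableEquiv.piFinSuccAbove, Fin.tail_def]
        exact (congrArg φ (Fin.cons_self_tail g)).symm
      have hint : Integrable (fun p : ℝ × (Fin N → ℝ) => φ (Fin.cons p.1 p.2)) (γ.prod μN) := by
        refine (hmp.integrable_comp ?_).1 ?_
        · exact (hφc.comp (by fun_prop)).aestronglyMeasurable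
        · rw [← e]; exact hφ
      refine ⟨hint, ?_⟩
      rw [← integral_prod _ hint]
      refine Eq.trans ?_ (hmp.integral_comp' (fun p : ℝ × (Fin N → ℝ) => φ (Fin.cons p.1 p.2)))
      exact integral_congr_ae (ae_of_all _ fun g => congrFun e g)
    obtain ⟨hfp, hfm⟩ := hF hc hfi
    obtain ⟨hsp, hsm⟩ := hF (φ := fun g => (f g - m) ^ 2) ((hc.sub continuous_const).pow 2) hsq
    have hui : Integrable u γ := hfp.integral_prod_left
    have hum : ∫ x, u x ∂γ = m := hfm.symm
    have hdev : ∀ x, (u x - m) ^ 2 ≤ L ^ 2 * (x ^ 2 + 1) := fun x => by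
      have i1 : Integrable (fun y => |x - y|) γ := by
        refine (((Vale.Agent.P150.integrable_one_add_abs_pow 1).const_mul (1 + |x|))).mono'
          (by fun_prop) (ae_of_all _ fun y => ?_)
        rw [Real.norm_eq_abs, abs_abs, pow_one]
        nlinarith [abs_sub x y, abs_nonneg x, abs_nonneg y]
      have h1 : |u x - m| ≤ L * ∫ y, |x - y| ∂γ := by
        rw [← hum, show u x - ∫ y, u y ∂γ = ∫ y, (u x - u y) ∂γ by
          rw [integral_sub (integrable_const _) hui]; simp [γ], ← integral_const_mul]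
        exact abs_integral_le_integral_abs.trans
          (integral_mono ((integrable_const _).sub hui).abs (i1.const_mul L) fun y => hu x y)
      have i2 : Integrable (fun y => (x - y) ^ 2) γ := by
        refine ((integrable_sq'.const_mul 2).add (integrable_const (2 * x ^ 2))).mono'
          (by fun_prop) (ae_of_all _ fun y => ?_)
        rw [Real.norm_eq_abs, abs_of_nonneg (sq_nonneg _), Pi.add_apply]
        nlinarith [sq_nonneg (x + y)]
      have h2 : (∫ y, |x - y| ∂γ) ^ 2 ≤ ∫ y, (x - y) ^ 2 ∂γ := by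
        set a := ∫ y, |x - y| ∂γ
        have h0 : 0 ≤ ∫ y, ((|x - y| - a) ^ 2) ∂γ := integral_nonneg fun y => sq_nonneg _
        have e : ∀ y, (|x - y| - a) ^ 2 = (x - y) ^ 2 - (2 * a * |x - y| - a ^ 2) := fun y => by
          rw [sub_sq, sq_abs]; ring
        simp_rw [e] at h0
        have i3 : Integrable (fun y => 2 * a * |x - y| - a ^ 2) γ :=
          (i1.const_mul _).sub (integrable_const _)
        rw [integral_sub i2 i3, integral_sub (i1.const_mul _) (integrable_const _),
          integral_const_mul] at h0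
        simp [γ] at h0
        linarith
      have h3 : ∫ y, (x - y) ^ 2 ∂γ = x ^ 2 + 1 := by
        have e : ∀ y : ℝ, (x - y) ^ 2 = (x ^ 2 - 2 * x * y) + y ^ 2 := fun y => by ring
        have i4 : Integrable (fun y : ℝ => y) γ := by
          refine (Vale.Agent.P150.integrable_one_add_abs_pow 1).mono' (by fun_prop)
            (ae_of_all _ fun y => ?_)
          rw [Real.norm_eq_abs, pow_one]; linarith
        simp_rw [e]
        rw [integral_add ((integrable_const _).sub' (i4.const_mul _)) integrable_sq',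
          integral_sub (integrable_const _) (i4.const_mul _), integral_const_mul,
          gaussianReal_first, gaussianReal_second]
        simp
      calc (u x - m) ^ 2 ≤ (L * ∫ y, |x - y| ∂γ) ^ 2 :=
            sq_le_sq' (by linarith [(abs_le.1 h1).1]) (abs_le.1 h1).2
        _ = L ^ 2 * (∫ y, |x - y| ∂γ) ^ 2 := by ring
        _ ≤ L ^ 2 * (x ^ 2 + 1) := mul_le_mul_of_nonneg_left (h2.trans h3.le) (sq_nonneg L)
    have hinner : ∀ x, ∫ g, (f (Fin.cons x g) - m) ^ 2 ∂μN ≤ 2 * N * L ^ 2 + (u x - m) ^ 2 := by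
      intro x
      have ih := var_lip N (fun g => f (Fin.cons x g)) L hL (hcc x) (hlipc x)
      have hg2 : PolyGrowth fun g : Fin N → ℝ => (f (Fin.cons x g) - u x) ^ 2 := by
        obtain ⟨A, d, hA⟩ := grow (hlipc x)
        refine ⟨(A + |u x|) ^ 2, d * 2, fun g => ?_⟩
        have h3 : (0 : ℝ) ≤ ∑ i, |g i| := sum_nonneg fun i _ => abs_nonneg _
        have hp : (1 : ℝ) ≤ (1 + ∑ i, |g i|) ^ d := one_le_pow₀ (by linarith)
        rw [abs_pow, pow_mul, ← mul_pow]
        refine pow_le_pow_left₀ (abs_nonneg _) ((abs_sub _ _).trans ?_) 2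
        nlinarith [hA g, abs_nonneg (u x)]
      have i2 := hg2.integrable (((hcc x).sub continuous_const).pow 2)
      have i1 : Integrable (fun g => f (Fin.cons x g) - u x) μN := (hi x).sub (integrable_const _)
      have e : ∀ g, (f (Fin.cons x g) - m) ^ 2 = (f (Fin.cons x g) - u x) ^ 2
          + (2 * (u x - m) * (f (Fin.cons x g) - u x) + (u x - m) ^ 2) := fun g => by ring
      simp_rw [e]
      have i3 : Integrable (fun g => 2 * (u x - m) * (f (Fin.cons x g) - u x) + (u x - m) ^ 2) μN :=
        (i1.const_mul _).add (integrable_const _)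
      rw [integral_add i2 i3, integral_add (i1.const_mul _) (integrable_const _),
        integral_const_mul, integral_sub (hi x) (integrable_const _)]
      simp only [u, μN] at ih ⊢
      simp
      linarith
    rw [hsm]
    refine (integral_mono hsp.integral_prod_left
      ((integrable_const (2 * N * L ^ 2)).add (((integrable_sq'.add (integrable_const 1))).const_mul
        (L ^ 2))) fun x => (hinner x).trans (add_le_add le_rfl (hdev x))).trans (le_of_eq ?_)
    simp only [Pi.add_apply]
    rw [integral_add (integrable_const _) ((integrable_sq'.fun_add (integrable_const 1)).const_mul _),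
      integral_const, integral_const_mul, integral_add integrable_sq' (integrable_const _),
      gaussianReal_second]
    simp
    ring

/-- The free energy is Lipschitz in the disorder. -/
lemma F_lip (β : ℝ) (g h : Edge n → ℝ) :
    |F β g - F β h| ≤ |β| / √(n : ℝ) * ∑ e, |g e - h e| := by
  set D := |β| / √(n : ℝ) * ∑ e, |g e - h e|
  have hH : ∀ s : Fin n → Bool, |β * H g s - β * H h s| ≤ D := fun s => by
    simp only [H, ← mul_sub, ← sum_sub_distrib, abs_mul, D,
      abs_of_nonneg (show 0 ≤ 1 / √(n : ℝ) by positivity)]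
    rw [show |β| / √(n : ℝ) * ∑ e, |g e - h e| = |β| * (1 / √(n : ℝ) * ∑ e, |g e - h e|) by ring]
    refine mul_le_mul_of_nonneg_left (mul_le_mul_of_nonneg_left ((abs_sum_le_sum_abs _ _).trans
      (le_of_eq (sum_congr rfl fun e _ => ?_))) (by positivity)) (abs_nonneg _)
    rw [← sub_mul, ← sub_mul, abs_mul, abs_mul, abs_spin, abs_spin, mul_one, mul_one]
  have key : ∀ a b : Edge n → ℝ, (∀ s : Fin n → Bool, β * H a s ≤ β * H b s + D) →
      F β a ≤ F β b + D := fun a b hab => by
    have h1 : ∑ s : Fin n → Bool, Real.exp (β * H a s) ≤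
        (∑ s : Fin n → Bool, Real.exp (β * H b s)) * Real.exp D := by
      rw [sum_mul]
      exact sum_le_sum fun s _ => by rw [← Real.exp_add]; exact Real.exp_le_exp.2 (hab s)
    have h2 := Real.log_le_log (sum_exp_pos β a) h1
    rw [Real.log_mul (sum_exp_pos β b).ne' (Real.exp_pos _).ne', Real.log_exp] at h2
    exact h2
  rw [abs_le]
  constructor
  · linarith [key h g fun s => by linarith [(abs_le.1 (hH s)).1]]
  · linarith [key g h fun s => by linarith [(abs_le.1 (hH s)).2]]

lemma var_F_le (β : ℝ) :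
    ∫ g, (F (n := n) β g - ∫ h, F β h ∂gauss (Edge n)) ^ 2 ∂gauss (Edge n) ≤ β ^ 2 * n := by
  rcases Nat.eq_zero_or_pos n with rfl | hn
  · simp [F, H]
  set e := (Fintype.equivFin (Edge n)).symm
  have hmp : MeasurePreserving (MeasurableEquiv.piCongrLeft (fun _ : Edge n => ℝ) e)
      (gauss (Fin (Fintype.card (Edge n)))) (gauss (Edge n)) :=
    measurePreserving_piCongrLeft (fun _ : Edge n => gaussianReal 0 1) e
  set φ := MeasurableEquiv.piCongrLeft (fun _ : Edge n => ℝ) e
  have happ : ∀ (z : Fin (Fintype.card (Edge n)) → ℝ) i, φ z (e i) = z i := fun z i => by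
    simp [φ, MeasurableEquiv.piCongrLeft, Equiv.piCongrLeft_apply_apply]
  have hsum : ∀ z z', ∑ x, |φ z x - φ z' x| = ∑ i, |z i - z' i| := fun z z' => by
    rw [← e.sum_comp]; simp only [happ]
  have hφc : Continuous φ := continuous_pi fun x => by
    obtain ⟨i, rfl⟩ := e.surjective x
    simp only [happ]; exact continuous_apply i
  have h := var_lip _ (fun z => F β (φ z)) (|β| / √(n : ℝ)) (by positivity)
    ((continuous_F β).comp hφc) fun z z' => (F_lip β _ _).trans (le_of_eq (by rw [hsum]))
  rw [hmp.integral_comp' (F β), hmp.integral_comp'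
    (fun g => (F β g - ∫ h, F β h ∂gauss (Edge n)) ^ 2)] at h
  refine h.trans ?_
  rw [div_pow, sq_abs, Real.sq_sqrt (Nat.cast_nonneg n)]
  have h2 := two_card_edge (n := n)
  have hn' : (0 : ℝ) < n := Nat.cast_pos.2 hn
  rw [mul_div, div_le_iff₀ hn']
  have := mul_le_mul_of_nonneg_right (show 2 * (Fintype.card (Edge n) : ℝ) ≤ n * n by linarith)
    (sq_nonneg β)
  linarith

/-- Exponential moment of a linear form. -/
lemma exp_linear {ι : Type*} [Fintype ι] (c : ι → ℝ) :
    Integrable (fun g => Real.exp (∑ e, c e * g e)) (gauss ι) ∧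
      ∫ g, Real.exp (∑ e, c e * g e) ∂gauss ι = Real.exp ((∑ e, c e ^ 2) / 2) := by
  have e1 : (fun g : ι → ℝ => Real.exp (∑ e, c e * g e)) = fun g => ∏ e, Real.exp (c e * g e) :=
    funext fun g => Real.exp_sum _ _
  refine ⟨?_, ?_⟩
  · rw [e1]
    exact Integrable.fintype_prod fun e => integrable_exp_mul_gaussianReal (c e)
  · rw [e1]
    have h1 : ∀ e : ι, ∫ x, Real.exp (c e * x) ∂gaussianReal 0 1 = Real.exp (c e ^ 2 / 2) :=
      fun e => by
        have := congrFun (mgf_id_gaussianReal (μ := 0) (v := 1)) (c e)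
        simpa [mgf] using this
    rw [Vale.Agent.P150.gauss, integral_fintype_prod_eq_prod (fun e x => Real.exp (c e * x))]
    simp only [h1, ← Real.exp_sum, sum_div]

lemma H_linear (b : ℝ) (g : Edge n → ℝ) (s : Fin n → Bool) :
    b * H g s = ∑ e, (b / √(n : ℝ) * se e s) * g e := by
  simp only [H, mul_sum, se]
  exact sum_congr rfl fun e _ => by ring

/-- The partition function. -/
noncomputable def Z (b : ℝ) (g : Edge n → ℝ) : ℝ := ∑ s : Fin n → Bool, Real.exp (b * H g s)

lemma mean_Z (b : ℝ) : Integrable (Z (n := n) b) (gauss (Edge n)) ∧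
    ∫ g, Z (n := n) b g ∂gauss (Edge n)
      = 2 ^ n * Real.exp (b ^ 2 * Fintype.card (Edge n) / (2 * n)) := by
  have hi : ∀ s : Fin n → Bool, Integrable (fun g => Real.exp (b * H g s)) (gauss (Edge n)) :=
    fun s => by simp only [H_linear]; exact (exp_linear _).1
  refine ⟨integrable_finsetSum _ fun s _ => hi s, ?_⟩
  simp only [Z]
  rw [integral_finsetSum _ fun s _ => hi s]
  have h1 : ∀ s : Fin n → Bool, ∫ g, Real.exp (b * H g s) ∂gauss (Edge n)
      = Real.exp (b ^ 2 * Fintype.card (Edge n) / (2 * n)) := fun s => by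
    simp only [H_linear, (exp_linear _).2]
    congr 1
    simp only [mul_pow, ← sq_abs (se _ s), abs_se, one_pow, mul_one, sum_const, card_univ,
      nsmul_eq_mul, div_pow, Real.sq_sqrt (Nat.cast_nonneg n)]
    ring
  simp only [h1, sum_const, card_univ, nsmul_eq_mul, card_config]

lemma integrable_exp_sq {b : ℝ} (hb : b ^ 2 < 1) :
    Integrable (fun x : ℝ => Real.exp (b ^ 2 * x ^ 2 / 2)) (gaussianReal 0 1) := by
  rw [gaussianReal_of_var_ne_zero 0 one_ne_zero, integrable_withDensity_iff (by fun_prop)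
    (ae_of_all _ fun _ => by simp [gaussianPDF])]
  refine ((integrable_exp_neg_mul_sq (b := (1 - b ^ 2) / 2) (by linarith)).const_mul
    (√(2 * π))⁻¹).congr (ae_of_all _ fun x => ?_)
  simp only [gaussianPDF]; rw [ENNReal.toReal_ofReal (gaussianPDFReal_nonneg _ _ _)]
  simp only [gaussianPDFReal, NNReal.coe_one, mul_one, sub_zero]
  rw [mul_left_comm, ← Real.exp_add]
  ring_nf

lemma second_Z {b : ℝ} (hb : b ^ 2 < 1) :
    Integrable (fun g => Z (n := n) b g ^ 2) (gauss (Edge n)) ∧
    ∫ g, Z (n := n) b g ^ 2 ∂gauss (Edge n)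
      ≤ (∫ x, Real.exp (b ^ 2 * x ^ 2 / 2) ∂gaussianReal 0 1)
        * (2 ^ n * Real.exp (b ^ 2 * Fintype.card (Edge n) / (2 * n))) ^ 2 := by
  have e0 : ∀ g, Z (n := n) b g ^ 2 = ∑ s, ∑ t, Real.exp (∑ e,
      (b / √(n : ℝ) * (se e s + se e t)) * g e) := fun g => by
    simp only [Z, sq, sum_mul_sum, ← Real.exp_add, H_linear, ← sum_add_distrib]
    exact sum_congr rfl fun s _ => sum_congr rfl fun t _ => congrArg Real.exp
      (sum_congr rfl fun e _ => by ring)
  have hi : ∀ s t : Fin n → Bool, Integrable (fun g => Real.exp (∑ e,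
      (b / √(n : ℝ) * (se e s + se e t)) * g e)) (gauss (Edge n)) := fun s t => (exp_linear _).1
  refine ⟨by simp only [e0]; exact integrable_finsetSum _ fun s _ =>
    integrable_finsetSum _ fun t _ => hi s t, ?_⟩
  simp only [e0]
  rw [integral_finsetSum _ fun s _ => integrable_finsetSum _ fun t _ => hi s t]
  simp_rw [integral_finsetSum _ fun t _ => hi _ t, (exp_linear _).2]
  set N : ℝ := (Fintype.card (Edge n) : ℝ)
  set γ : ℝ := b ^ 2 / n
  have hγ : 0 ≤ γ := by positivity
  have h1 : ∀ s t : Fin n → Bool, (∑ e, (b / √(n : ℝ) * (se e s + se e t)) ^ 2) / 2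
      ≤ b ^ 2 * N / n + γ * (∑ u, spin (s u == t u)) ^ 2 / 2 := fun s t => by
    have e1 : ∀ e : Edge n, (b / √(n : ℝ) * (se e s + se e t)) ^ 2
        = γ * (2 + 2 * (spin (s e.1.1 == t e.1.1) * spin (s e.1.2 == t e.1.2))) := fun e => by
      rw [mul_pow, div_pow, Real.sq_sqrt (Nat.cast_nonneg n)]
      simp only [se, γ]
      cases s e.1.1 <;> cases s e.1.2 <;> cases t e.1.1 <;> cases t e.1.2 <;> norm_num [spin]
    have e2 : (∑ u, spin (s u == t u)) ^ 2
        = n + 2 * ∑ e : Edge n, spin (s e.1.1 == t e.1.1) * spin (s e.1.2 == t e.1.2) := by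
      rw [sq, sum_mul_sum, sum_pairs _ fun u v => mul_comm _ _]
      simp [← sq, spin_sq]
    rw [sum_congr rfl fun e _ => e1 e, ← mul_sum, sum_add_distrib, ← mul_sum, e2]
    simp only [sum_const, card_univ, nsmul_eq_mul, N, γ]
    have : 0 ≤ b ^ 2 / n * n / 2 := by positivity
    have e3 : b ^ 2 * (Fintype.card (Edge n) : ℝ) / n = b ^ 2 / n * Fintype.card (Edge n) := by ring
    rw [e3]
    linarith
  refine (sum_le_sum fun s _ => sum_le_sum fun t _ => Real.exp_le_exp.2 (h1 s t)).trans ?_
  simp only [Real.exp_add, ← mul_sum]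
  have h2 : ∀ s : Fin n → Bool, ∑ t : Fin n → Bool, Real.exp (γ * (∑ u, spin (s u == t u)) ^ 2 / 2)
      = ∑ w : Fin n → Bool, Real.exp (γ * (∑ u, spin (w u)) ^ 2 / 2) := fun s => by
    have hinv : Function.Involutive fun (t : Fin n → Bool) (u : Fin n) => (s u == t u) := by
      intro t; funext u; cases h1 : s u <;> cases h2 : t u <;> simp [h1, h2]
    exact (Equiv.sum_comp hinv.toPerm
      fun w : Fin n → Bool => Real.exp (γ * (∑ u, spin (w u)) ^ 2 / 2))
  simp only [h2, sum_const, card_univ, nsmul_eq_mul, card_config]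
  have h3 : ∀ w : Fin n → Bool,
      Integrable (fun x : ℝ => Real.exp (√γ * (∑ u, spin (w u)) * x)) (gaussianReal 0 1) ∧
      Real.exp (γ * (∑ u, spin (w u)) ^ 2 / 2)
        = ∫ x, Real.exp (√γ * (∑ u, spin (w u)) * x) ∂gaussianReal 0 1 := fun w => by
    refine ⟨integrable_exp_mul_gaussianReal _, ?_⟩
    have := congrFun (mgf_id_gaussianReal (μ := 0) (v := 1)) (√γ * ∑ u, spin (w u))
    simp [mgf] at this
    rw [this, mul_pow, Real.sq_sqrt hγ]
  have h4 : ∑ w : Fin n → Bool, Real.exp (γ * (∑ u, spin (w u)) ^ 2 / 2)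
      ≤ 2 ^ n * ∫ x, Real.exp (b ^ 2 * x ^ 2 / 2) ∂gaussianReal 0 1 := by
    rw [sum_congr rfl fun w _ => (h3 w).2, ← integral_finsetSum _ fun w _ => (h3 w).1,
      ← integral_const_mul]
    refine integral_mono (integrable_finsetSum _ fun w _ => (h3 w).1)
      ((integrable_exp_sq hb).const_mul _) fun x => ?_
    have e : ∑ w : Fin n → Bool, Real.exp (√γ * (∑ u, spin (w u)) * x)
        = ∏ _u : Fin n, ∑ c : Bool, Real.exp (√γ * spin c * x) := by
      rw [Fintype.prod_sum fun (_ : Fin n) c => Real.exp (√γ * spin c * x)]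
      refine sum_congr rfl fun w _ => ?_
      rw [← Real.exp_sum, mul_sum, sum_mul]
    rw [e]
    simp only [Fintype.sum_bool, spin, if_true, Bool.false_eq_true, if_false, prod_const,
      card_univ, Fintype.card_fin, mul_one, mul_neg, neg_mul]
    have h5 : Real.exp (√γ * x) + Real.exp (-(√γ * x)) ≤ 2 * Real.exp ((√γ * x) ^ 2 / 2) := by
      have := Real.cosh_le_exp_half_sq (√γ * x)
      rw [Real.cosh_eq] at this
      linarith
    refine (pow_le_pow_left₀ (by positivity) h5 n).trans ?_
    rw [mul_pow, ← Real.exp_nat_mul, mul_pow, Real.sq_sqrt hγ]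
    refine mul_le_mul_of_nonneg_left (Real.exp_le_exp.2 ?_) (by positivity)
    simp only [γ]
    rcases Nat.eq_zero_or_pos n with rfl | hn
    · simp only [Nat.cast_zero, zero_mul]; nlinarith [sq_nonneg (b * x)]
    · exact le_of_eq (by field_simp)
  refine le_trans (mul_le_mul_of_nonneg_left (mul_le_mul_of_nonneg_left h4 ?_) ?_) (le_of_eq ?_)
  · positivity
  · positivity
  rw [mul_pow, ← Real.exp_nat_mul (b ^ 2 * N / (2 * n)) 2,
    show ((2 : ℕ) : ℝ) * (b ^ 2 * N / (2 * n)) = b ^ 2 * N / n by push_cast; ring]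
  ring

/-- The free energy is annealed up to `O(√n)` below `β = 1`. -/
theorem mean_F_lower {b : ℝ} (hb : b ^ 2 < 1) : ∃ C : ℝ, ∀ n : ℕ, 0 < n →
    n * Real.log 2 + b ^ 2 * (n - 1) / 4 - C * √(n : ℝ) ≤ ∫ g, F (n := n) b g ∂gauss (Edge n) := by
  set K := ∫ x, Real.exp (b ^ 2 * x ^ 2 / 2) ∂gaussianReal 0 1 with hK
  have hK1 : 1 ≤ K := by
    have := integral_mono (integrable_const (1 : ℝ)) (integrable_exp_sq hb)
      (fun x => Real.one_le_exp (by positivity))
    simpa using this
  refine ⟨Real.log 2 + √(4 * K * b ^ 2), fun n hn => ?_⟩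
  have hn' : (1 : ℝ) ≤ n := Nat.one_le_cast.2 hn
  set μ := gauss (Edge n)
  obtain ⟨hi1, hm⟩ := mean_Z (n := n) b
  obtain ⟨hi2, hs⟩ := second_Z (n := n) hb
  set M := 2 ^ n * Real.exp (b ^ 2 * Fintype.card (Edge n) / (2 * n))
  have hM : 0 < M := by positivity
  have hlog : Real.log M = n * Real.log 2 + b ^ 2 * (n - 1) / 4 := by
    rw [Real.log_mul (by positivity) (Real.exp_pos _).ne', Real.log_pow, Real.log_exp]
    have := two_card_edge (n := n)
    field_simp
    linear_combination (2 : ℝ) * b ^ 2 * this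
  set G := {g : Edge n → ℝ | M / 2 ≤ Z b g}
  have hcZ : Continuous (Z (n := n) b) := continuous_finsetSum _ fun s _ =>
    Real.continuous_exp.comp (continuous_const.mul (continuous_H s))
  have hG : MeasurableSet G := measurableSet_le measurable_const hcZ.measurable
  have hP : 1 / (4 * K) ≤ μ.real G := by
    have hind : Integrable (fun g => G.indicator (fun _ => (1 : ℝ)) g) μ :=
      (integrable_const _).indicator hG
    have hpt : ∀ g, Z b g ≤ M / 2 + Z b g ^ 2 / (4 * K * M)
        + K * M * G.indicator (fun _ => (1 : ℝ)) g := fun g => by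
      have h0 : 0 ≤ Z b g ^ 2 / (4 * K * M) := by positivity
      by_cases hg : g ∈ G
      · rw [Set.indicator_of_mem hg]
        have : 0 ≤ (Z b g - 2 * K * M) ^ 2 / (4 * K * M) := by positivity
        have e : (Z b g - 2 * K * M) ^ 2 / (4 * K * M)
            = Z b g ^ 2 / (4 * K * M) - Z b g + K * M := by field_simp; ring
        linarith
      · rw [Set.indicator_of_notMem hg]
        simp only [G, Set.mem_ofPred_eq, not_le] at hg
        linarith
    have h := integral_mono hi1 (((integrable_const (M / 2)).fun_add (hi2.div_const _)).fun_add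
      (hind.const_mul (K * M))) hpt
    rw [hm, integral_add ((integrable_const _).fun_add (hi2.div_const _)) (hind.const_mul _),
      integral_add (integrable_const _) (hi2.div_const _), integral_const_mul,
      integral_indicator_const _ hG, integral_const, probReal_univ, one_smul,
      smul_eq_mul, mul_one] at h
    simp only [integral_div] at h
    have h2 : (∫ g, Z b g ^ 2 ∂μ) / (4 * K * M) ≤ M / 4 := by
      rw [div_le_iff₀ (by positivity)]
      exact hs.trans (le_of_eq (by ring))
    rw [div_le_iff₀ (by positivity)]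
    nlinarith
  set m := ∫ g, F b g ∂μ
  by_contra hlt
  have hs1 : 1 ≤ √(n : ℝ) := Real.one_le_sqrt.2 hn'
  set r := √(4 * K * b ^ 2) * √(n : ℝ)
  have hgap : r < Real.log M - Real.log 2 - m := by
    rw [hlog]
    have : Real.log 2 ≤ Real.log 2 * √(n : ℝ) :=
      le_mul_of_one_le_right (Real.log_nonneg (by norm_num)) hs1
    simp only [r]; nlinarith
  set D := Real.log M - Real.log 2 - m
  have hD : 0 < D := lt_of_le_of_lt (by positivity) hgap
  have hFG : ∀ g ∈ G, D ≤ F b g - m := fun g hg => by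
    have := Real.log_le_log (by positivity) (show M / 2 ≤ Z b g from hg)
    rw [Real.log_div hM.ne' two_ne_zero] at this
    simp only [D]; unfold F; simp only [Z] at this; linarith
  have hsqi : Integrable (fun g => (F b g - m) ^ 2) μ := by
    refine PolyGrowth.integrable (growth_sq ?_) (((continuous_F b).sub continuous_const).pow 2)
    obtain ⟨A, d, hA⟩ := growth_F (n := n) b
    refine ⟨A + |m|, d, fun g => (abs_sub _ _).trans ?_⟩
    have hp : (1 : ℝ) ≤ (1 + ∑ e, |g e|) ^ d :=
      one_le_pow₀ (le_add_of_nonneg_right (sum_nonneg fun e _ => abs_nonneg _))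
    nlinarith [hA g, abs_nonneg m]
  have h1 : D ^ 2 * μ.real G ≤ b ^ 2 * n := by
    refine le_trans ?_ (var_F_le (n := n) b)
    refine le_trans (le_of_eq ?_) (integral_mono (((integrable_const (D ^ 2))).indicator hG) hsqi
      fun g => ?_)
    · rw [integral_indicator_const _ hG, smul_eq_mul, mul_comm]
    · by_cases hg : g ∈ G
      · rw [Set.indicator_of_mem hg]; exact pow_le_pow_left₀ hD.le (hFG g hg) 2
      · rw [Set.indicator_of_notMem hg]; exact sq_nonneg _
  have h2 : r ^ 2 < D ^ 2 := pow_lt_pow_left₀ hgap (by positivity) two_ne_zero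
  have h3 : D ^ 2 / (4 * K) ≤ b ^ 2 * n :=
    le_trans (le_of_eq (by ring)) ((mul_le_mul_of_nonneg_left hP (sq_nonneg D)).trans h1)
  simp only [r, mul_pow] at h2
  rw [Real.sq_sqrt (by positivity), Real.sq_sqrt (Nat.cast_nonneg n)] at h2
  rw [div_le_iff₀ (by positivity)] at h3
  linarith

lemma mean_F_upper (b : ℝ) (hn : 0 < n) :
    ∫ g, F (n := n) b g ∂gauss (Edge n) ≤ n * Real.log 2 + b ^ 2 * (n - 1) / 4 := by
  have hn' : (0 : ℝ) < n := Nat.cast_pos.2 hn
  obtain ⟨hi, hm⟩ := mean_Z (n := n) b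
  set M := 2 ^ n * Real.exp (b ^ 2 * Fintype.card (Edge n) / (2 * n))
  have hM : 0 < M := by positivity
  have h : ∀ g, F (n := n) b g ≤ Real.log M + (Z b g / M - 1) := fun g => by
    have hZ : 0 < Z b g := sum_exp_pos b g
    have := Real.log_le_sub_one_of_pos (div_pos hZ hM)
    rw [Real.log_div hZ.ne' hM.ne'] at this
    show Real.log (Z b g) ≤ _
    linarith
  refine (integral_mono (integrable_F b) ((integrable_const _).fun_add
    ((hi.div_const _).sub' (integrable_const 1))) h).trans (le_of_eq ?_)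
  rw [integral_add (integrable_const _) ((hi.div_const _).sub' (integrable_const 1)),
    integral_sub (hi.div_const _) (integrable_const 1), integral_div, hm, div_self hM.ne']
  simp only [integral_const, probReal_univ, one_smul, sub_self, add_zero]
  rw [Real.log_mul (by positivity) (Real.exp_pos _).ne', Real.log_pow, Real.log_exp]
  have := two_card_edge (n := n)
  field_simp
  linear_combination (2 : ℝ) * b ^ 2 * this

/-- The mean overlap is uniformly small near `β = 1`. -/
theorem Q_small {ε : ℝ} (hε : 0 < ε) :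
    ∃ δ > 0, ∀ᶠ n : ℕ in atTop, ∀ β : ℝ, |β - 1| < δ → Q n β ≤ ε := by
  set d := min (1 / 10) (ε / 10)
  have hd : 0 < d := lt_min (by norm_num) (by positivity)
  have hd1 : d ≤ 1 / 10 := min_le_left _ _
  have hd2 : d ≤ ε / 10 := min_le_right _ _
  set b := 1 - d with hb
  set a := 1 - 2 * d with ha
  obtain ⟨C, hC⟩ := mean_F_lower (b := b) (by nlinarith)
  have hlim : ∀ᶠ n : ℕ in atTop, |C| * √(n : ℝ) + 1 ≤ d ^ 2 * n := by
    have h := ((tendsto_const_nhds (x := |C|)).div_atTop
      (Real.tendsto_sqrt_atTop.comp tendsto_natCast_atTop_atTop)).add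
      (tendsto_const_div_atTop_nhds_zero_nat (1 : ℝ))
    simp only [add_zero] at h
    filter_upwards [h.eventually_le_const (pow_pos hd 2), eventually_gt_atTop 0] with n hn hn0
    have hn' : (0 : ℝ) < n := Nat.cast_pos.2 hn0
    have := mul_le_mul_of_nonneg_right hn hn'.le
    refine le_trans (le_of_eq ?_) this
    simp only [Function.comp_apply, add_mul, div_mul_eq_mul_div]
    rw [one_mul, div_self hn'.ne', mul_div_assoc, Real.div_sqrt]
  refine ⟨d, hd, ?_⟩
  filter_upwards [hlim, eventually_gt_atTop 0] with n hn hn0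
  intro β hβ
  have hn' : (0 : ℝ) < n := Nat.cast_pos.2 hn0
  have hn1 : (1 : ℝ) ≤ n := Nat.one_le_cast.2 hn0
  have h1 := mean_tangent (n := n) b a
  have h2 := mean_F_upper (n := n) a hn0
  have h3 := hC n hn0
  have hC' : C * √(n : ℝ) ≤ |C| * √(n : ℝ) :=
    mul_le_mul_of_nonneg_right (le_abs_self C) (Real.sqrt_nonneg _)
  have hab : a - b = -d := by simp only [ha, hb]; ring
  rw [hab] at h1
  have hQb := Q_bounds n b
  -- the overlap at `b`
  have h4 : (b ^ 2 - a ^ 2) * (n - 1) / 4 - d ^ 2 * n ≤ d * (b * n * (1 - Q n b) / 2) := by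
    linarith
  have h5 : b * Q n b ≤ 4 * d := by
    have e : b ^ 2 - a ^ 2 = d * (2 - 3 * d) := by simp only [hb, ha]; ring
    rw [e] at h4
    have h4' : d * ((2 - 3 * d) * (n - 1) / 4 - d * n) ≤ d * (b * n * (1 - Q n b) / 2) := by
      linarith
    have h6 := le_of_mul_le_mul_left h4' hd
    have h7 : b * n * Q n b / 2 ≤ d * n * (5 / 4) + 1 / 2 := by
      simp only [hb] at h6 ⊢; nlinarith
    have h8 : 1 ≤ d * n := by
      have : d ^ 2 * n ≤ d * n := mul_le_mul_of_nonneg_right (by nlinarith) hn'.le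
      nlinarith [mul_nonneg (abs_nonneg C) (Real.sqrt_nonneg (n : ℝ))]
    have h9 : b * Q n b * n ≤ 4 * d * n := by nlinarith
    exact le_of_mul_le_mul_right h9 hn'
  obtain ⟨hl, hu⟩ := abs_lt.1 hβ
  have hbβ : b < β := by simp only [hb]; linarith
  have h6 := le_of_mul_le_mul_right (energy_mono (n := n) hbβ) hn'
  have hQ := Q_bounds n β
  have hbpos : 1 / 2 < β := by linarith
  by_contra hc
  have := mul_lt_mul_of_pos_left (not_le.1 hc) (show 0 < β by linarith)
  have : ε / 2 ≤ β * ε := by nlinarith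
  simp only [hb] at h5 h6
  nlinarith

end Vale.Agent.P146.Crit
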