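import Vale.Agent.P146.Crit.Cycle
import Vale.Agent.P146.Crit.HighTemp

/-!
# The free energy fluctuates unboundedly near the critical temperature
-/

namespace Vale.Agent.P146.Crit

open MeasureTheory ProbabilityTheory Finset Real Function Filter
open Vale.Agent.P150 (gauss PolyGrowth)
open scoped Topology

variable {n k : ℕ}

/-! ### Correlations summed over all tuples -/

lemma ge_sq (β : ℝ) (g : Edge n → ℝ) (Φ : (Fin n → Bool) → ℝ) :
    ge β g Φ ^ 2 = (∑ s, ∑ t, Real.exp (β * H g s) * Real.exp (β * H g t) * (Φ s * Φ t))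
      / (∑ s : Fin n → Bool, Real.exp (β * H g s)) ^ 2 := by
  rw [ge, div_pow, sq (∑ s, Real.exp (β * H g s) * Φ s), sum_mul_sum]
  congr 1
  exact sum_congr rfl fun s _ => sum_congr rfl fun t _ => by ring

lemma exists_start {A : Finset (Fin (k + 3))} (hA : A.Nonempty) (hr : Fin.last (k + 2) ∉ A) :
    ∃ i ∈ A, i - 1 ∉ A := by
  by_contra h
  push Not at h
  have hstep : ∀ i, i ∉ A → i + 1 ∉ A := fun i hi h1 => hi (by simpa using h _ h1)
  have h0 : (0 : Fin (k + 3)) ∉ A := by simpa using hstep _ hr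
  have hall : ∀ i, i ∉ A := fun i => Fin.induction h0
    (fun j hj => by rw [← Fin.coeSucc_eq_succ]; exact hstep _ hj) i
  obtain ⟨i, hi⟩ := hA
  exact hall i hi

lemma sum_pair_sF {A : Finset (Fin (k + 3))} (hA : A.Nonempty) (hr : Fin.last (k + 2) ∉ A)
    (s t : Fin n → Bool) :
    ∑ y : Fin (k + 3) → Fin n, sF y A s * sF y A t
      ≤ (n : ℝ) ^ (k + 2) * |∑ v, spin (s v) * spin (t v)| := by
  set r := fun v => spin (s v) * spin (t v)
  set f := fun (i : Fin (k + 3)) (v : Fin n) =>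
    (if i ∈ A then r v else 1) * (if i - 1 ∈ A then r v else 1)
  have h1 : ∀ y : Fin (k + 3) → Fin n, sF y A s * sF y A t = ∏ i, f i (y i) := fun y => by
    have e : ∏ i, (if i - 1 ∈ A then r (y i) else 1) = ∏ i, (if i ∈ A then r (y (i + 1)) else 1) :=
      (Fintype.prod_equiv (Equiv.addRight (1 : Fin (k + 3))) _ _ fun i => by simp).symm
    simp only [f, prod_mul_distrib]
    rw [e, ← prod_mul_distrib, sF, sF, ← prod_mul_distrib, ← prod_filter_mul_prod_filter_not univ
      (fun i => i ∈ A) (fun i => (if i ∈ A then r (y i) else 1) *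
        (if i ∈ A then r (y (i + 1)) else 1))]
    rw [filter_mem_eq_inter, univ_inter, prod_eq_one (s := univ.filter fun i => i ∉ A)
      fun i hi => by simp [(mem_filter.1 hi).2], mul_one]
    exact prod_congr rfl fun i hi => by simp only [hi, if_true, r]; ring
  have h2 : ∀ i, |∑ v, f i v| ≤ n := fun i => by
    refine (abs_sum_le_sum_abs _ _).trans ((sum_le_sum (g := fun _ => (1 : ℝ)) fun v _ => ?_).trans
      (by simp))
    simp only [f, r]
    split_ifs <;> simp [abs_mul, abs_spin]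
  obtain ⟨i0, hi0, hi0'⟩ := exists_start hA hr
  rw [sum_congr rfl fun y _ => h1 y, ← Fintype.prod_sum f]
  refine (le_abs_self _).trans ?_
  rw [abs_prod, ← mul_prod_erase univ _ (mem_univ i0), mul_comm ((n : ℝ) ^ (k + 2))]
  refine mul_le_mul (le_of_eq (congrArg abs (sum_congr rfl fun v _ => by simp [f, r, hi0, hi0'])))
    ((prod_le_prod (fun i _ => abs_nonneg _) fun i _ => h2 i).trans_eq (by simp))
    (prod_nonneg fun i _ => abs_nonneg _) (abs_nonneg _)

lemma sum_ge_sq_le (β : ℝ) (g : Edge n → ℝ) (hn : 0 < n) {u : ℝ} (hu : 0 < u)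
    {A : Finset (Fin (k + 3))} (hA : A.Nonempty) (hr : Fin.last (k + 2) ∉ A) :
    ∑ y : Fin (k + 3) → Fin n, ge β g (sF y A) ^ 2
      ≤ (n : ℝ) ^ (k + 3) * (qg β g / (2 * u) + u / 2) := by
  have hn' : (0 : ℝ) < n := Nat.cast_pos.2 hn
  set E := fun s : Fin n → Bool => Real.exp (β * H g s)
  set R := fun s t : Fin n → Bool => ∑ v, spin (s v) * spin (t v)
  have hZ := sum_exp_pos β g
  have hR : ∑ s, ∑ t, E s * E t * R s t ^ 2 = (n : ℝ) ^ 2 * qg β g * (∑ s, E s) ^ 2 := by
    rw [qg, mul_div_cancel₀ _ (by positivity), sum_mul]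
    have e : ∀ s t, E s * E t * R s t ^ 2 = ∑ u, ∑ v,
        E s * E t * ((spin (s u) * spin (s v)) * (spin (t u) * spin (t v))) := fun s t => by
      simp only [R]
      rw [sq, sum_mul_sum]
      simp only [mul_sum]
      exact sum_congr rfl fun u _ => sum_congr rfl fun v _ => by ring
    simp only [e]
    rw [sum_congr rfl fun s _ => sum_comm, sum_comm]
    refine sum_congr rfl fun u _ => ?_
    rw [sum_mul, sum_congr rfl fun s _ => sum_comm, sum_comm]
    refine sum_congr rfl fun v _ => ?_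
    rw [ge_sq, div_mul_cancel₀ _ (pow_ne_zero 2 hZ.ne')]
  simp only [ge_sq, ← sum_div]
  rw [div_le_iff₀ (pow_pos hZ 2), sum_comm]
  calc ∑ s, ∑ y : Fin (k + 3) → Fin n, ∑ t, E s * E t * (sF y A s * sF y A t)
      = ∑ s, ∑ t, E s * E t * ∑ y : Fin (k + 3) → Fin n, sF y A s * sF y A t := by
        refine sum_congr rfl fun s _ => ?_
        rw [sum_comm]
        exact sum_congr rfl fun t _ => (mul_sum _ _ _).symm
    _ ≤ ∑ s, ∑ t, (n : ℝ) ^ (k + 2) / (2 * u * n) * (E s * E t * R s t ^ 2)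
          + ∑ s, ∑ t, (n : ℝ) ^ (k + 2) * (u * n / 2) * (E s * E t) := by
        rw [← sum_add_distrib]
        refine sum_le_sum fun s _ => ?_
        rw [← sum_add_distrib]
        refine sum_le_sum fun t _ => ?_
        refine (mul_le_mul_of_nonneg_left (sum_pair_sF hA hr s t) (by positivity)).trans ?_
        have h : |R s t| ≤ R s t ^ 2 / (2 * u * n) + u * n / 2 := by
          rw [← sq_abs (R s t), div_add_div _ _ (by positivity) two_ne_zero,
            le_div_iff₀ (by positivity)]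
          nlinarith [sq_nonneg (|R s t| - u * n)]
        refine (mul_le_mul_of_nonneg_left (mul_le_mul_of_nonneg_left h (by positivity))
          (by positivity)).trans_eq ?_
        ring
    _ = _ := by
        simp only [← mul_sum, ← sum_mul, hR]
        rw [pow_succ (n : ℝ) (k + 2)]
        field_simp
        ring

lemma integral_abs_ge_le (β : ℝ) (hn : 0 < n) {η : ℝ} (hη : 0 < η) (hQ : Q n β ≤ η ^ 4)
    {A : Finset (Fin (k + 3))} (hA : A.Nonempty) (hr : Fin.last (k + 2) ∉ A) :
    ∑ x : Fin (k + 3) ↪ Fin n, ∫ g, |ge β g (sF x A)| ∂gauss (Edge n)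
      ≤ (n : ℝ) ^ (k + 3) * η := by
  have hi : ∀ y : Fin (k + 3) → Fin n,
      Integrable (fun g => |ge β g (sF y A)|) (gauss (Edge n)) := fun y =>
    (integrable_bounded (continuous_ge β _) fun g => abs_ge_sF β g y A).abs
  have key : ∀ g : Edge n → ℝ, ∑ x : Fin (k + 3) ↪ Fin n, |ge β g (sF x A)|
      ≤ (n : ℝ) ^ (k + 3) / (4 * η ^ 3) * qg β g + (n : ℝ) ^ (k + 3) * (3 * η / 4) := fun g => by
    have h1 : ∑ x : Fin (k + 3) ↪ Fin n, |ge β g (sF x A)|
        ≤ ∑ y : Fin (k + 3) → Fin n, |ge β g (sF y A)| := by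
      refine le_of_eq_of_le (sum_map univ ⟨fun x : Fin (k + 3) ↪ Fin n => ⇑x,
        DFunLike.coe_injective⟩ fun y => |ge β g (sF y A)|).symm ?_
      exact sum_le_sum_of_subset_of_nonneg (subset_univ _) fun _ _ _ => abs_nonneg _
    refine h1.trans ((sum_le_sum fun y _ =>
      show |ge β g (sF y A)| ≤ ge β g (sF y A) ^ 2 / (2 * η) + η / 2 by
        rw [← sq_abs (ge β g _), div_add_div _ _ (by positivity) two_ne_zero,
          le_div_iff₀ (by positivity)]
        nlinarith [sq_nonneg (|ge β g (sF y A)| - η)]).trans ?_)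
    rw [sum_add_distrib, ← sum_div]
    refine (add_le_add (div_le_div_of_nonneg_right
      (sum_ge_sq_le β g hn (pow_pos hη 2) hA hr) (by positivity)) le_rfl).trans_eq ?_
    simp only [sum_const, card_univ, Fintype.card_fun, Fintype.card_fin, nsmul_eq_mul, Nat.cast_pow]
    field_simp
    ring
  rw [← integral_finsetSum univ fun (x : Fin (k + 3) ↪ Fin n) _ => hi ⇑x]
  refine (integral_mono (integrable_finsetSum univ fun (x : Fin (k + 3) ↪ Fin n) _ => hi ⇑x)
    (((integrable_qg β).const_mul _).fun_add (integrable_const _)) key).trans ?_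
  rw [integral_add ((integrable_qg β).const_mul _) (integrable_const _), integral_const_mul]
  simp only [integral_const, probReal_univ, one_smul]
  refine (add_le_add (mul_le_mul_of_nonneg_left (show ∫ g, qg β g ∂gauss (Edge n) ≤ η ^ 4 from hQ)
    (by positivity)) le_rfl).trans_eq ?_
  field_simp
  ring

lemma sum_Bd_le (β : ℝ) (hn : 0 < n) {η : ℝ} (hη : 0 < η) (hQ : Q n β ≤ η ^ 4) :
    ∑ x : Fin (k + 3) ↪ Fin n, Bd β x ≤ 2 ^ (k + 3) * ((n : ℝ) ^ (k + 3) * η) := by
  simp only [Bd]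
  rw [sum_comm]
  refine (sum_le_sum fun A hA =>
    integral_abs_ge_le β hn hη hQ (mem_filter.1 hA).2.1 (mem_filter.1 hA).2.2).trans ?_
  rw [sum_const, nsmul_eq_mul]
  refine mul_le_mul_of_nonneg_right ?_ (by positivity)
  have := card_le_univ ((univ : Finset (Finset (Fin (k + 3)))).filter
    fun A => A.Nonempty ∧ Fin.last (k + 2) ∉ A)
  rw [Fintype.card_finset, Fintype.card_fin] at this
  exact_mod_cast this

/-! ### Orthogonality of cycle monomials -/

/-- A square-free monomial. -/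
def mon (S : Finset (Edge n)) (g : Edge n → ℝ) : ℝ := ∏ e ∈ S, g e

lemma growth_mon_mul (S S' : Finset (Edge n)) : PolyGrowth fun g => mon S g * mon S' g := by
  have h : ∀ (S : Finset (Edge n)) (g : Edge n → ℝ), |mon S g| ≤ (1 + ∑ e, |g e|) ^ S.card :=
    fun S g => by
    rw [mon, abs_prod]
    refine (prod_le_prod (fun i _ => abs_nonneg _) fun i _ => ?_).trans_eq (prod_const _)
    have := single_le_sum (f := fun q => |g q|) (fun q _ => abs_nonneg _) (mem_univ i)
    linarith
  refine ⟨1, S.card + S'.card, fun g => ?_⟩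
  rw [one_mul, pow_add, abs_mul]
  exact mul_le_mul (h S g) (h S' g) (abs_nonneg _)
    (pow_nonneg (add_nonneg zero_le_one (sum_nonneg fun _ _ => abs_nonneg _)) _)

lemma continuous_mon (S : Finset (Edge n)) : Continuous (mon S) :=
  continuous_finsetProd _ fun _ _ => continuous_apply _

lemma integrable_mon_mul (S S' : Finset (Edge n)) :
    Integrable (fun g => mon S g * mon S' g) (gauss (Edge n)) :=
  (growth_mon_mul S S').integrable ((continuous_mon S).mul (continuous_mon S'))

lemma integral_mon_mul (S S' : Finset (Edge n)) :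
    ∫ g, mon S g * mon S' g ∂gauss (Edge n) = if S = S' then 1 else 0 := by
  set f := fun (e : Edge n) (x : ℝ) => (if e ∈ S then x else 1) * (if e ∈ S' then x else 1)
  have h1 : ∀ g : Edge n → ℝ, mon S g * mon S' g = ∏ e, f e (g e) := fun g => by
    simp only [f]
    rw [prod_mul_distrib, prod_ite_mem, prod_ite_mem, univ_inter, univ_inter]
    rfl
  have h2 : ∀ e, ∫ x, f e x ∂gaussianReal 0 1 = if (e ∈ S ↔ e ∈ S') then 1 else 0 := fun e => by
    by_cases a : e ∈ S <;> by_cases b : e ∈ S'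
    · simp [f, a, b, ← sq, gaussianReal_second]
    · simp [f, a, b, gaussianReal_first]
    · simp [f, a, b, gaussianReal_first]
    · simp [f, a, b]
  rw [integral_congr_ae (ae_of_all _ h1), Vale.Agent.P150.gauss, integral_fintype_prod_eq_prod f]
  simp only [h2]
  by_cases h : S = S'
  · simp [h]
  · rw [if_neg h]
    obtain ⟨e, he⟩ : ∃ e, ¬(e ∈ S ↔ e ∈ S') := by
      by_contra hc
      push Not at hc
      exact h (Finset.ext hc)
    exact prod_eq_zero (mem_univ e) (if_neg he)

/-- The edge set of a cycle. -/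
def es (x : Fin (k + 3) ↪ Fin n) : Finset (Edge n) := univ.image (ed x)

lemma card_es (x : Fin (k + 3) ↪ Fin n) : (es x).card = k + 3 := by
  simp [es, card_image_of_injective _ (ed_injective x)]

lemma Mo_univ (x : Fin (k + 3) ↪ Fin n) (g : Edge n → ℝ) : Mo x univ g = mon (es x) g :=
  (prod_image fun _ _ _ _ h => ed_injective x h).symm

/-- At most `2k` embeddings share an edge set. -/
lemma card_same (x : Fin (k + 3) ↪ Fin n) :
    (univ.filter fun y : Fin (k + 3) ↪ Fin n => es x = es y).card ≤ 2 * (k + 3) := by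
  set P : Finset (Fin n × Fin n) := (univ : Finset (Fin (k + 3) × Bool)).image
    fun p => (x p.1, if p.2 then x (p.1 + 1) else x (p.1 - 1))
  refine (card_le_card_of_injOn (fun y : Fin (k + 3) ↪ Fin n => (y 0, y 1)) (t := P) ?_ ?_).trans
    (card_image_le.trans (by simp [mul_comm]))
  · intro y hy
    have hy' : es x = es y := (mem_filter.1 hy).2
    have hm : ed y 0 ∈ es x := by rw [hy']; exact mem_image_of_mem _ (mem_univ _)
    obtain ⟨a, -, ha⟩ := mem_image.1 hm
    refine mem_image.2 ?_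
    rcases ed_eq ha.symm with ⟨h1, h2⟩ | ⟨h1, h2⟩ <;> rw [zero_add] at h2
    · exact ⟨(a, true), mem_univ _, by simp [h1, h2]⟩
    · exact ⟨(a + 1, false), mem_univ _, by simp [h1, h2]⟩
  · intro y hy z hz h
    simp only [Prod.mk.injEq] at h
    have he : es y = es z := ((mem_filter.1 hy).2).symm.trans (mem_filter.1 hz).2
    have hstep : ∀ i, (y i = z i ∧ y (i + 1) = z (i + 1)) →
        (y (i + 1) = z (i + 1) ∧ y (i + 1 + 1) = z (i + 1 + 1)) := by
      rintro i ⟨ha, hb⟩
      refine ⟨hb, ?_⟩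
      have hm : ed y (i + 1) ∈ es z := by rw [← he]; exact mem_image_of_mem _ (mem_univ _)
      obtain ⟨j, -, hj⟩ := mem_image.1 hm
      rcases ed_eq hj.symm with ⟨c1, c2⟩ | ⟨c1, c2⟩
      · rw [hb] at c1
        rw [c2, z.injective c1]
      · rw [hb] at c1
        rw [← add_right_cancel (z.injective c1), ← ha] at c2
        exact absurd (y.injective c2) (fin_ne_succ2 i)
    have hall : ∀ i, y i = z i ∧ y (i + 1) = z (i + 1) := fun i =>
      Fin.induction ⟨h.1, by simpa using h.2⟩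
        (fun j hj => by rw [← Fin.coeSucc_eq_succ]; exact hstep _ hj) i
    exact DFunLike.ext _ _ fun i => (hall i).1

lemma card_emb_bounds (h : 2 * (k + 3) ^ 2 ≤ n) :
    (n : ℝ) ^ (k + 3) / 2 ≤ (Fintype.card (Fin (k + 3) ↪ Fin n) : ℝ) ∧
      (Fintype.card (Fin (k + 3) ↪ Fin n) : ℝ) ≤ (n : ℝ) ^ (k + 3) := by
  rw [Fintype.card_embedding_eq, Fintype.card_fin, Fintype.card_fin]
  refine ⟨?_, by exact_mod_cast Nat.descFactorial_le_pow n (k + 3)⟩
  have hK : k + 3 ≤ n := le_trans (by nlinarith) h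
  have hn : (0 : ℝ) < n := Nat.cast_pos.2 (by omega)
  have h' : 2 * ((k + 3 : ℕ) : ℝ) ^ 2 ≤ n := by exact_mod_cast h
  have hKR : ((k + 3 : ℕ) : ℝ) ≤ n := Nat.cast_le.2 hK
  set K : ℝ := ((k + 3 : ℕ) : ℝ) with hKdef
  have hK0 : 0 ≤ K := Nat.cast_nonneg _
  have b : 1 - K ^ 2 / n ≤ (1 + -(K / n)) ^ (k + 3) := by
    refine le_trans (le_of_eq ?_) (one_add_mul_le_pow ?_ (k + 3))
    · rw [← hKdef]; ring
    · have := div_le_one_of_le₀ hKR hn.le; linarith
  have hhalf : 1 / 2 ≤ 1 - K ^ 2 / n := by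
    have : K ^ 2 / n ≤ 1 / 2 := by rw [div_le_iff₀ hn]; linarith
    linarith
  calc (n : ℝ) ^ (k + 3) / 2 = (n : ℝ) ^ (k + 3) * (1 / 2) := by ring
    _ ≤ (n : ℝ) ^ (k + 3) * (1 + -(K / n)) ^ (k + 3) :=
        mul_le_mul_of_nonneg_left (hhalf.trans b) (by positivity)
    _ = ((n : ℝ) - K) ^ (k + 3) := by rw [← mul_pow]; congr 1; field_simp; ring
    _ ≤ ((n + 1 - (k + 3) : ℕ) : ℝ) ^ (k + 3) := by
        refine pow_le_pow_left₀ (by linarith) ?_ _
        rw [Nat.cast_sub (by omega), Nat.cast_add, Nat.cast_one, ← hKdef]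
        linarith
    _ ≤ _ := by exact_mod_cast Nat.pow_sub_le_descFactorial n (k + 3)

/-! ### The test function -/

/-- Weight of cycles of length `k + 3`. -/
noncomputable def cw (n k : ℕ) : ℝ := 1 / (k + 3) * (1 / √(n : ℝ)) ^ (k + 3)

/-- The test function. -/
noncomputable def T (N : ℕ) (g : Edge n → ℝ) : ℝ :=
  ∑ k ∈ range N, ∑ x : Fin (k + 3) ↪ Fin n, cw n k * mon (es x) g

lemma cw_nonneg (n k : ℕ) : 0 ≤ cw n k := by unfold cw; positivity

lemma cw_sq (hn : 0 < n) (k : ℕ) :
    cw n k ^ 2 * ((n : ℝ) ^ (k + 3) * (2 * (k + 3))) = 2 * (1 / (k + 3)) := by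
  have hn' : (0 : ℝ) < n := Nat.cast_pos.2 hn
  rw [cw, mul_pow, ← pow_mul, mul_comm (k + 3) 2, pow_mul, div_pow _ (√(n : ℝ)), one_pow,
    Real.sq_sqrt hn'.le, div_pow 1 (n : ℝ), one_pow]
  field_simp

lemma T_sq_integrable (N : ℕ) : Integrable (fun g => T (n := n) N g ^ 2) (gauss (Edge n)) := by
  simp only [T, sq, sum_mul_sum]
  refine integrable_finsetSum _ fun k _ => integrable_finsetSum _ fun l _ =>
    integrable_finsetSum _ fun x _ => integrable_finsetSum _ fun y _ => ?_
  simp only [mul_mul_mul_comm]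
  exact (integrable_mon_mul _ _).const_mul _

lemma T_second (N : ℕ) (hn : 2 * (N + 3) ^ 2 ≤ n) :
    ∫ g, T (n := n) N g ^ 2 ∂gauss (Edge n) ≤ 2 * ∑ k ∈ range N, 1 / ((k : ℝ) + 3) := by
  have hn0 : 0 < n := lt_of_lt_of_le (by positivity) hn
  simp only [T, sq, sum_mul_sum, mul_mul_mul_comm]
  rw [integral_finsetSum _ fun k _ => integrable_finsetSum _ fun l _ =>
    integrable_finsetSum _ fun x _ => integrable_finsetSum _ fun y _ =>
      (integrable_mon_mul _ _).const_mul _, mul_sum]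
  refine sum_le_sum fun k hk => ?_
  rw [integral_finsetSum _ fun l _ => integrable_finsetSum _ fun x _ =>
    integrable_finsetSum _ fun y _ => (integrable_mon_mul _ _).const_mul _,
    sum_eq_single k ?_ fun h => absurd hk h]
  · rw [integral_finsetSum _ fun x _ => integrable_finsetSum _ fun y _ =>
      (integrable_mon_mul _ _).const_mul _]
    simp_rw [integral_finsetSum _ fun y _ => (integrable_mon_mul _ _).const_mul _,
      integral_const_mul, integral_mon_mul, mul_ite, mul_one, mul_zero, sum_ite, sum_const_zero,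
      add_zero, sum_const, nsmul_eq_mul, ← sum_mul, ← sq]
    refine le_trans ?_ (cw_sq hn0 k).le
    rw [mul_comm]
    refine mul_le_mul_of_nonneg_left ?_ (sq_nonneg _)
    have hk' := mem_range.1 hk
    refine (sum_le_sum fun x _ => (Nat.cast_le.2 (card_same x) :
      _ ≤ ((2 * (k + 3) : ℕ) : ℝ))).trans ?_
    rw [sum_const, card_univ, nsmul_eq_mul]
    push_cast
    exact mul_le_mul_of_nonneg_right
      (card_emb_bounds (le_trans (by gcongr) hn)).2 (by positivity)
  · intro l _ hl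
    rw [integral_finsetSum _ fun x _ => integrable_finsetSum _ fun y _ =>
      (integrable_mon_mul _ _).const_mul _]
    refine sum_eq_zero fun x _ => ?_
    rw [integral_finsetSum _ fun y _ => (integrable_mon_mul _ _).const_mul _]
    refine sum_eq_zero fun y _ => ?_
    rw [integral_const_mul, integral_mon_mul, if_neg, mul_zero]
    intro h
    have := congrArg Finset.card h
    rw [card_es, card_es] at this
    omega

lemma integrable_F_mon (β : ℝ) (S : Finset (Edge n)) :
    Integrable (fun g => F β g * mon S g) (gauss (Edge n)) := by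
  obtain ⟨A, m, hA⟩ := growth_F (n := n) β
  obtain ⟨B, l, hB⟩ := growth_mon_mul S (∅ : Finset (Edge n))
  refine PolyGrowth.integrable ⟨A * B, m + l, fun g => ?_⟩
    ((continuous_F β).mul (continuous_mon S))
  have h := hB g
  simp only [mon, prod_empty, mul_one] at h
  rw [abs_mul, pow_add, mul_mul_mul_comm]
  exact mul_le_mul (hA g) h (abs_nonneg _) ((abs_nonneg _).trans (hA g))

lemma T_cov (N : ℕ) (hn : 2 * (N + 3) ^ 2 ≤ n) {β η : ℝ} (hη : 0 < η)
    (hQ : Q n β ≤ η ^ 4) (hd : ∀ k < N, (dK (k + 2) : ℝ) * 2 ^ (k + 3) * η ≤ 1 / 4)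
    (hβ : 0 ≤ β) (hpow : ∀ k < N, 1 / 2 ≤ β ^ (k + 3)) :
    (∑ k ∈ range N, 1 / ((k : ℝ) + 3)) / 8 ≤ ∫ g, F β g * T (n := n) N g ∂gauss (Edge n) := by
  have hn0 : 0 < n := lt_of_lt_of_le (by positivity) hn
  have hn' : (0 : ℝ) < n := Nat.cast_pos.2 hn0
  simp only [T, mul_sum, mul_left_comm (F β _)]
  rw [integral_finsetSum _ fun k _ => integrable_finsetSum _ fun x _ =>
    (integrable_F_mon β _).const_mul _, sum_div]
  refine sum_le_sum fun k hk => ?_
  have hk' := mem_range.1 hk
  rw [integral_finsetSum _ fun x _ => (integrable_F_mon β _).const_mul _]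
  simp only [integral_const_mul, ← mul_sum, ← Mo_univ]
  set b := (β / √(n : ℝ)) ^ (k + 3) with hb
  have hb0 : 0 ≤ b := by positivity
  have hsum : (Fintype.card (Fin (k + 3) ↪ Fin n) : ℝ) * b
      - b * dK (k + 2) * (2 ^ (k + 3) * ((n : ℝ) ^ (k + 3) * η))
      ≤ ∑ x : Fin (k + 3) ↪ Fin n, ∫ g, F β g * Mo x univ g ∂gauss (Edge n) := by
    refine le_trans ?_ (sum_le_sum (f := fun x : Fin (k + 3) ↪ Fin n =>
      b - b * dK (k + 2) * Bd β x) fun x _ => ?_)
    · rw [sum_sub_distrib, sum_const, card_univ, nsmul_eq_mul, ← mul_sum]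
      exact sub_le_sub_left (mul_le_mul_of_nonneg_left (sum_Bd_le β hn0 hη hQ) (by positivity)) _
    · have h := (abs_le.1 (cov_cycle β x)).1
      rw [abs_of_nonneg hβ, ← hb] at h
      linarith
  refine le_trans ?_ (mul_le_mul_of_nonneg_left hsum (cw_nonneg n k))
  have hc := (card_emb_bounds (n := n) (k := k) (le_trans (by gcongr) hn)).1
  have hb' : b * (n : ℝ) ^ (k + 3) * cw n k = β ^ (k + 3) * (1 / (k + 3)) := by
    rw [hb, cw, div_pow, div_pow, one_pow]
    field_simp
    rw [← pow_mul, mul_comm (k + 3) 2, pow_mul, Real.sq_sqrt hn'.le]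
  have hpos : (0 : ℝ) ≤ 1 / (k + 3) := by positivity
  calc 1 / ((k : ℝ) + 3) / 8 ≤ β ^ (k + 3) * (1 / (k + 3)) * (1 / 4) := by
        have := mul_le_mul_of_nonneg_right (hpow k hk') hpos
        linarith
    _ ≤ β ^ (k + 3) * (1 / (k + 3)) * (1 / 2 - dK (k + 2) * 2 ^ (k + 3) * η) :=
        mul_le_mul_of_nonneg_left (by linarith [hd k hk']) (by positivity)
    _ = cw n k * ((n : ℝ) ^ (k + 3) / 2 * b
          - b * dK (k + 2) * (2 ^ (k + 3) * ((n : ℝ) ^ (k + 3) * η))) := by
        rw [← hb']; ring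
    _ ≤ _ := mul_le_mul_of_nonneg_left
        (sub_le_sub_right (mul_le_mul_of_nonneg_right hc hb0) _) (cw_nonneg n k)

/-- **Unbounded fluctuations near criticality.** -/
theorem variance_unbounded (M : ℝ) :
    ∃ δ > 0, ∀ᶠ n : ℕ in atTop, ∀ β : ℝ, |β - 1| < δ →
      M ≤ variance (fun g : Edge n → ℝ => Real.log (∑ s : Fin n → Bool, Real.exp (β * H g s)))
        (Measure.pi fun _ : Edge n => gaussianReal 0 1) := by
  have hS : Tendsto (fun N : ℕ => ∑ k ∈ range N, 1 / ((k : ℝ) + 3)) atTop atTop := by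
    refine tendsto_atTop_mono (fun N => ?_)
      (Real.tendsto_sum_range_one_div_nat_succ_atTop.const_mul_atTop (r := 1 / 3) (by norm_num))
    rw [mul_sum]
    refine sum_le_sum fun k _ => ?_
    rw [div_mul_div_comm, one_mul]
    exact one_div_le_one_div_of_le (by positivity) (by linarith [Nat.cast_nonneg (α := ℝ) k])
  obtain ⟨N, hN⟩ := (hS.eventually_ge_atTop (128 * M)).exists
  set D := ∑ k ∈ range N, (dK (k + 2) : ℝ) * 2 ^ (k + 3) with hD
  have hD0 : 0 ≤ D := sum_nonneg fun k _ => by positivity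
  set η := 1 / (4 * (1 + D)) with hη
  have hη0 : 0 < η := by positivity
  have hd : ∀ k < N, (dK (k + 2) : ℝ) * 2 ^ (k + 3) * η ≤ 1 / 4 := fun k hk => by
    have := single_le_sum (f := fun k => (dK (k + 2) : ℝ) * 2 ^ (k + 3))
      (fun _ _ => by positivity) (mem_range.2 hk)
    rw [hη, mul_one_div, div_le_div_iff₀ (by positivity) (by norm_num)]
    linarith
  obtain ⟨δ, hδ, hev⟩ := Q_small (pow_pos hη0 4)
  set δ' := min δ (1 / (2 * ((N : ℝ) + 3)))
  refine ⟨δ', lt_min hδ (by positivity), ?_⟩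
  filter_upwards [hev, eventually_ge_atTop (2 * (N + 3) ^ 2)] with n hQ hn
  intro β hβ
  have hQ' := hQ β (hβ.trans_le (min_le_left _ _))
  have hb : |β - 1| < 1 / (2 * ((N : ℝ) + 3)) := hβ.trans_le (min_le_right _ _)
  obtain ⟨hb1, hb2⟩ := abs_lt.1 hb
  have hsm : 1 / (2 * ((N : ℝ) + 3)) ≤ 1 := by
    rw [div_le_one (by positivity)]; linarith [Nat.cast_nonneg (α := ℝ) N]
  have hβ0 : 0 ≤ β := by linarith
  have hpow : ∀ k < N, 1 / 2 ≤ β ^ (k + 3) := fun k hk => by
    refine le_trans ?_ (le_trans (one_add_mul_le_pow (a := -(1 / (2 * ((N : ℝ) + 3)))) (by linarith)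
      (k + 3)) (pow_le_pow_left₀ (by linarith) (by linarith) _))
    have : ((k + 3 : ℕ) : ℝ) * (1 / (2 * ((N : ℝ) + 3))) ≤ 1 / 2 := by
      rw [mul_one_div, div_le_iff₀ (by positivity)]
      push_cast
      have : (k : ℝ) ≤ N := Nat.cast_le.2 hk.le
      linarith
    linarith
  set S := ∑ k ∈ range N, 1 / ((k : ℝ) + 3)
  have hcov := T_cov N hn hη0 hQ' hd hβ0 hpow
  have hT2 := T_second (n := n) N hn
  set μ := gauss (Edge n)
  have hTi : Integrable (T (n := n) N) μ :=
    integrable_finsetSum _ fun k _ => integrable_finsetSum _ fun x _ => by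
      simpa [mon] using (integrable_mon_mul (es x) ∅).const_mul (cw n k)
  have hT0 : ∫ g, T (n := n) N g ∂μ = 0 := by
    have hi : ∀ k, ∀ x : Fin (k + 3) ↪ Fin n, Integrable (fun g => cw n k * mon (es x) g) μ :=
      fun k x => by simpa [mon] using (integrable_mon_mul (es x) ∅).const_mul (cw n k)
    simp only [T]
    rw [integral_finsetSum _ fun k _ => integrable_finsetSum _ fun x _ => hi k x]
    refine sum_eq_zero fun k _ => ?_
    rw [integral_finsetSum _ fun x _ => hi k x]
    refine sum_eq_zero fun x _ => ?_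
    have h := integral_mon_mul (es x) (∅ : Finset (Edge n))
    rw [if_neg (by rw [← Finset.card_eq_zero, card_es]; omega)] at h
    simp only [mon, prod_empty, mul_one] at h
    rw [integral_const_mul, show ∫ g, mon (es x) g ∂μ = 0 from h, mul_zero]
  have hFT : Integrable (fun g => F β g * T (n := n) N g) μ := by
    simp only [T, mul_sum, mul_left_comm (F β _)]
    exact integrable_finsetSum _ fun k _ => integrable_finsetSum _ fun x _ =>
      (integrable_F_mon β _).const_mul _
  have hsq : Integrable (fun g => (F (n := n) β g - ∫ h, F β h ∂μ) ^ 2) μ := by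
    obtain ⟨A, d, hA⟩ := growth_F (n := n) β
    refine PolyGrowth.integrable (growth_sq ⟨A + |∫ h, F β h ∂μ|, d, fun g => ?_⟩)
      (((continuous_F β).sub continuous_const).pow 2)
    refine (abs_sub _ _).trans ?_
    have hp : (1 : ℝ) ≤ (1 + ∑ e, |g e|) ^ d :=
      one_le_pow₀ (le_add_of_nonneg_right (sum_nonneg fun e _ => abs_nonneg _))
    rw [add_mul]
    exact add_le_add (hA g) (le_mul_of_one_le_right (abs_nonneg _) hp)
  rw [show variance (fun g : Edge n → ℝ => Real.log (∑ s : Fin n → Bool, Real.exp (β * H g s)))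
    (Measure.pi fun _ : Edge n => gaussianReal 0 1)
    = ∫ g, (F β g - ∫ h, F β h ∂μ) ^ 2 ∂μ from
    variance_eq_integral (continuous_F β).aemeasurable]
  have hcross : ∀ g : Edge n → ℝ, (1 / 16 * 2 : ℝ) * (F β g * T N g - (∫ h, F β h ∂μ) * T N g)
      - (1 / 16 : ℝ) ^ 2 * T N g ^ 2 ≤ (F β g - ∫ h, F β h ∂μ) ^ 2 := fun g => by
    nlinarith [sq_nonneg (F β g - (∫ h, F β h ∂μ) - 1 / 16 * T N g)]
  have h2 := T_sq_integrable (n := n) N
  have hle := integral_mono (((hFT.sub' (hTi.const_mul _)).const_mul _).sub' (h2.const_mul _))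
    hsq hcross
  rw [integral_sub ((hFT.sub' (hTi.const_mul _)).const_mul _) (h2.const_mul _), integral_const_mul,
    integral_const_mul, integral_sub hFT (hTi.const_mul _), integral_const_mul, hT0, mul_zero,
    sub_zero] at hle
  linarith

end Vale.Agent.P146.Crit
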