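import Vale.Agent.P146.Crit.Gibbs

/-!
# Correlation of the free energy with cycle monomials
-/

namespace Vale.Agent.P146.Crit

open MeasureTheory ProbabilityTheory Finset Real Function
open Vale.Agent.P150 (gauss PolyGrowth)

variable {n k : ℕ}

lemma fin_ne_succ (i : Fin (k + 3)) : i ≠ i + 1 := by
  intro h
  simpa [Fin.ext_iff] using left_eq_add.1 h

lemma fin_ne_succ2 (i : Fin (k + 3)) : i + 1 + 1 ≠ i := by
  intro h
  rw [add_assoc] at h
  have := add_eq_left.1 h
  simp [Fin.ext_iff, Fin.val_add, Nat.mod_eq_of_lt (show 1 + 1 < k + 3 by omega)] at this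

/-- The `i`-th edge of a cycle. -/
def ed (x : Fin (k + 3) ↪ Fin n) (i : Fin (k + 3)) : Edge n :=
  if h : x i < x (i + 1) then ⟨(x i, x (i + 1)), h⟩
  else ⟨(x (i + 1), x i), lt_of_le_of_ne (not_lt.1 h)
    fun e => fin_ne_succ i (x.injective e.symm)⟩

/-- Spin product over a set of positions of a tuple. -/
def sF (y : Fin (k + 3) → Fin n) (A : Finset (Fin (k + 3))) (s : Fin n → Bool) : ℝ :=
  ∏ i ∈ A, spin (s (y i)) * spin (s (y (i + 1)))

lemma se_ed (x : Fin (k + 3) ↪ Fin n) (i : Fin (k + 3)) (s : Fin n → Bool) :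
    se (ed x i) s = spin (s (x i)) * spin (s (x (i + 1))) := by
  unfold ed
  split_ifs with h
  · rfl
  · exact mul_comm _ _

lemma ed_eq {x y : Fin (k + 3) ↪ Fin n} {i j : Fin (k + 3)} (h : ed x i = ed y j) :
    (x i = y j ∧ x (i + 1) = y (j + 1)) ∨ (x i = y (j + 1) ∧ x (i + 1) = y j) := by
  unfold ed at h
  split_ifs at h <;> simp only [Subtype.mk.injEq, Prod.mk.injEq] at h <;>
    obtain ⟨h1, h2⟩ := h
  · exact Or.inl ⟨h1, h2⟩
  · exact Or.inr ⟨h1, h2⟩
  · exact Or.inr ⟨h2, h1⟩
  · exact Or.inl ⟨h2, h1⟩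

lemma ed_injective (x : Fin (k + 3) ↪ Fin n) : Injective (ed x) := by
  intro i j h
  rcases ed_eq h with ⟨h1, -⟩ | ⟨h1, h2⟩
  · exact x.injective h1
  · exact absurd (by rw [← x.injective h1]; exact x.injective h2) (fin_ne_succ2 j)

lemma abs_sF (y : Fin (k + 3) → Fin n) (A : Finset (Fin (k + 3))) (s : Fin n → Bool) :
    |sF y A s| = 1 := by
  simp [sF, abs_prod, abs_mul, abs_spin]

lemma sF_univ (y : Fin (k + 3) → Fin n) (s : Fin n → Bool) : sF y univ s = 1 := by
  simp only [sF, prod_mul_distrib]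
  rw [Fintype.prod_equiv (Equiv.addRight (1 : Fin (k + 3))) (fun i => spin (s (y (i + 1))))
    (fun i => spin (s (y i))) fun i => rfl, ← prod_mul_distrib]
  simp [← sq, spin_sq]

lemma sF_insert (x : Fin (k + 3) ↪ Fin n) {A : Finset (Fin (k + 3))} {j : Fin (k + 3)}
    (h : j ∉ A) : (fun s => sF x A s * se (ed x j) s) = sF x (insert j A) := by
  funext s
  rw [sF, sF, prod_insert h, se_ed, mul_comm]

lemma se_eq_sF (x : Fin (k + 3) ↪ Fin n) (j : Fin (k + 3)) : se (ed x j) = sF x {j} := by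
  funext s
  simp [sF, se_ed]

/-- The cycle monomial. -/
def Mo (x : Fin (k + 3) ↪ Fin n) (L : Finset (Fin (k + 3))) (g : Edge n → ℝ) : ℝ :=
  ∏ i ∈ L, g (ed x i)

lemma continuous_Mo (x : Fin (k + 3) ↪ Fin n) (L : Finset (Fin (k + 3))) : Continuous (Mo x L) :=
  continuous_finsetProd _ fun _ _ => continuous_apply _

lemma abs_Mo_le (x : Fin (k + 3) ↪ Fin n) (L : Finset (Fin (k + 3))) (g : Edge n → ℝ) :
    |Mo x L g| ≤ (1 + ∑ e, |g e|) ^ L.card := by
  rw [Mo, abs_prod]
  refine (prod_le_prod (fun i _ => abs_nonneg _) fun i _ => ?_).trans_eq (prod_const _)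
  have := single_le_sum (f := fun q => |g q|) (fun q _ => abs_nonneg _) (mem_univ (ed x i))
  linarith

lemma growth_bdd_mul_Mo (x : Fin (k + 3) ↪ Fin n) (L : Finset (Fin (k + 3)))
    {f : (Edge n → ℝ) → ℝ} {C : ℝ} (h : ∀ g, |f g| ≤ C) :
    PolyGrowth fun g => f g * Mo x L g := by
  refine ⟨C, L.card, fun g => ?_⟩
  rw [abs_mul]
  exact mul_le_mul (h g) (abs_Mo_le x L g) (abs_nonneg _) ((abs_nonneg _).trans (h g))

lemma integrable_bdd_mul_Mo (x : Fin (k + 3) ↪ Fin n) (L : Finset (Fin (k + 3)))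
    {f : (Edge n → ℝ) → ℝ} (hc : Continuous f) {C : ℝ} (h : ∀ g, |f g| ≤ C) :
    Integrable (fun g => f g * Mo x L g) (gauss (Edge n)) :=
  (growth_bdd_mul_Mo x L h).integrable (hc.mul (continuous_Mo x L))

/-- Integration by parts in one edge of the cycle. -/
lemma ibp_step (x : Fin (k + 3) ↪ Fin n) {L : Finset (Fin (k + 3))} {j : Fin (k + 3)} (hj : j ∈ L)
    {f G : (Edge n → ℝ) → ℝ} (hfc : Continuous f) (hGc : Continuous G)
    (hd : ∀ g, HasDerivAt (fun t => f (update g (ed x j) t)) (G g) (g (ed x j)))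
    (hf : PolyGrowth fun g => f g * Mo x (L.erase j) g)
    (hG : PolyGrowth fun g => G g * Mo x (L.erase j) g) :
    ∫ g, f g * Mo x L g ∂gauss (Edge n) = ∫ g, G g * Mo x (L.erase j) g ∂gauss (Edge n) := by
  have hinv : ∀ g t, Mo x (L.erase j) (update g (ed x j) t) = Mo x (L.erase j) g := fun g t =>
    prod_congr rfl fun i hi =>
      update_of_ne (fun e => (ne_of_mem_erase hi) (ed_injective x e)) t g
  refine Eq.trans ?_ (Vale.Agent.P150.gauss_ibp (ed x j) (F := fun g => f g * Mo x (L.erase j) g)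
    (G := fun g => G g * Mo x (L.erase j) g) (hfc.mul (continuous_Mo x _))
    (hGc.mul (continuous_Mo x _)) (fun g => ?_) hf hG)
  · refine integral_congr_ae (ae_of_all _ fun g => ?_)
    simp only [Mo]
    rw [← mul_prod_erase L _ hj]
    ring
  · simp only [hinv]
    exact (hd g).mul_const _

/-- Constants in the bound for products of correlations. -/
def cK : ℕ → ℕ → ℕ
  | 0, _ => 1
  | l + 1, m => (1 + m) * cK l m + (1 + m) * cK l (m + 1)

/-- Constants in the bound for the leading correlation. -/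
def dK : ℕ → ℕ
  | 0 => 0
  | l + 1 => dK l + cK l 1

/-- Sum of all nontrivial correlations along a cycle. -/
noncomputable def Bd (β : ℝ) (x : Fin (k + 3) ↪ Fin n) : ℝ :=
  ∑ A ∈ (univ : Finset (Finset (Fin (k + 3)))).filter
    (fun A => A.Nonempty ∧ Fin.last (k + 2) ∉ A), ∫ g, |ge β g (sF x A)| ∂gauss (Edge n)

lemma Bd_nonneg (β : ℝ) (x : Fin (k + 3) ↪ Fin n) : 0 ≤ Bd β x :=
  sum_nonneg fun _ _ => integral_nonneg fun _ => abs_nonneg _

lemma abs_ge_sF (β : ℝ) (g : Edge n → ℝ) (y : Fin (k + 3) → Fin n) (A : Finset (Fin (k + 3))) :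
    |ge β g (sF y A)| ≤ 1 :=
  abs_ge_le β g fun s => (abs_sF y A s).le

lemma abs_prod_ge (β : ℝ) (g : Edge n → ℝ) {m : ℕ} (Φ : Fin m → (Fin n → Bool) → ℝ)
    (h : ∀ r s, |Φ r s| ≤ 1) : |∏ r, ge β g (Φ r)| ≤ 1 := by
  rw [abs_prod]
  exact prod_le_one (fun r _ => abs_nonneg _) fun r _ => abs_ge_le β g (h r)

lemma continuous_prod_ge (β : ℝ) {m : ℕ} (Φ : Fin m → (Fin n → Bool) → ℝ) :
    Continuous fun g : Edge n → ℝ => ∏ r, ge β g (Φ r) :=
  continuous_finsetProd _ fun r _ => continuous_ge β (Φ r)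

lemma prod_bound (β : ℝ) (x : Fin (k + 3) ↪ Fin n) : ∀ (l m : ℕ)
    (Φ : Fin m → (Fin n → Bool) → ℝ) (A L : Finset (Fin (k + 3))), L.card = l →
    (∀ r s, |Φ r s| ≤ 1) → A.Nonempty → Fin.last (k + 2) ∉ A → Fin.last (k + 2) ∉ L →
    Disjoint A L →
    |∫ g, (ge β g (sF x A) * ∏ r, ge β g (Φ r)) * Mo x L g ∂gauss (Edge n)|
      ≤ (|β| / √(n : ℝ)) ^ l * cK l m * Bd β x
  | 0, m, Φ, A, L, hL, hΦ, hA, hAr, _, _ => by
    rw [card_eq_zero] at hL
    subst hL
    simp only [Mo, prod_empty, mul_one, pow_zero, cK, Nat.cast_one, one_mul]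
    refine abs_integral_le_integral_abs.trans ((integral_mono ?_ ?_ fun g => ?_).trans
      (single_le_sum (f := fun B => ∫ g, |ge β g (sF x B)| ∂gauss (Edge n))
        (fun B _ => integral_nonneg fun g => abs_nonneg (ge β g (sF x B)))
        (show A ∈ univ.filter (fun A => A.Nonempty ∧ Fin.last (k + 2) ∉ A) from
          mem_filter.2 ⟨mem_univ A, hA, hAr⟩)))
    · exact (integrable_bounded ((continuous_ge β _).mul (continuous_prod_ge β Φ))
        fun g => by rw [Pi.mul_apply, abs_mul]; exact mul_le_one₀ (abs_ge_sF β g x A) (abs_nonneg _)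
                      (abs_prod_ge β g Φ hΦ)).abs
    · exact (integrable_bounded (continuous_ge β _) fun g => abs_ge_sF β g x A).abs
    · rw [abs_mul]
      exact mul_le_of_le_one_right (abs_nonneg _) (abs_prod_ge β g Φ hΦ)
  | l + 1, m, Φ, A, L, hL, hΦ, hA, hAr, hLr, hd => by
    obtain ⟨j, hj⟩ : L.Nonempty := card_pos.1 (by omega)
    have hjA : j ∉ A := fun h => (disjoint_left.1 hd) h hj
    have hjr : Fin.last (k + 2) ≠ j := fun h => hLr (h ▸ hj)
    have hL' : (L.erase j).card = l := by rw [card_erase_of_mem hj]; omega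
    have hLr' : Fin.last (k + 2) ∉ L.erase j := fun h => hLr (mem_of_mem_erase h)
    set c := β / √(n : ℝ)
    set e := ed x j
    set a := fun g : Edge n → ℝ => ge β g (sF x A)
    set Ψ : Fin (m + 1) → (Fin n → Bool) → ℝ := Fin.cons (se e) Φ
    have hΨ : ∀ r s, |Ψ r s| ≤ 1 := fun r s => by
      refine Fin.cases ?_ (fun r => ?_) r
      · simp [Ψ, abs_se]
      · simpa [Ψ] using hΦ r s
    set Υ : Fin m → Fin m → (Fin n → Bool) → ℝ :=
      fun r => update Φ r fun s => Φ r s * se e s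
    have hΥ : ∀ r r' s, |Υ r r' s| ≤ 1 := fun r r' s => by
      by_cases h : r' = r
      · subst h; simpa [Υ, abs_mul, abs_se] using hΦ r' s
      · simpa [Υ, update_of_ne h] using hΦ r' s
    set T1 := fun g : Edge n → ℝ => ge β g (sF x (insert j A)) * ∏ r, ge β g (Φ r)
    set T2 := fun g : Edge n → ℝ => a g * ∏ r, ge β g (Ψ r)
    set T3 := fun (r : Fin m) (g : Edge n → ℝ) => a g * ∏ r', ge β g (Υ r r')
    set G := fun g : Edge n → ℝ => c * (T1 g + ∑ r, T3 r g - (1 + m) * T2 g)
    have b1 : ∀ g, |T1 g| ≤ 1 := fun g => by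
      rw [abs_mul]
      exact mul_le_one₀ (abs_ge_sF β g x _) (abs_nonneg _) (abs_prod_ge β g Φ hΦ)
    have b2 : ∀ g, |T2 g| ≤ 1 := fun g => by
      rw [abs_mul]
      exact mul_le_one₀ (abs_ge_sF β g x _) (abs_nonneg _) (abs_prod_ge β g Ψ hΨ)
    have b3 : ∀ r g, |T3 r g| ≤ 1 := fun r g => by
      rw [abs_mul]
      exact mul_le_one₀ (abs_ge_sF β g x _) (abs_nonneg _) (abs_prod_ge β g (Υ r) (hΥ r))
    have c1 : Continuous T1 := (continuous_ge β _).mul (continuous_prod_ge β Φ)
    have c2 : Continuous T2 := (continuous_ge β _).mul (continuous_prod_ge β Ψ)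
    have c3 : ∀ r, Continuous (T3 r) := fun r => (continuous_ge β _).mul (continuous_prod_ge β _)
    have hGc : Continuous G :=
      continuous_const.mul ((c1.add (continuous_finsetSum _ fun r _ => c3 r)).sub
        (continuous_const.mul c2))
    have hGb : ∀ g, |G g| ≤ |c| * ((1 + m) + (1 + m)) := fun g => by
      rw [abs_mul]
      refine mul_le_mul_of_nonneg_left ((abs_sub _ _).trans (add_le_add ((abs_add_le _ _).trans
        (add_le_add (b1 g) ((abs_sum_le_sum_abs _ _).trans ((sum_le_sum fun r _ => b3 r g).trans_eq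
          (by simp))))) ?_)) (abs_nonneg _)
      rw [abs_mul, abs_of_nonneg (show (0 : ℝ) ≤ 1 + m by positivity)]
      exact mul_le_of_le_one_right (by positivity) (b2 g)
    have hder : ∀ g, HasDerivAt
        (fun t => ge β (update g e t) (sF x A) * ∏ r, ge β (update g e t) (Φ r)) (G g) (g e) := by
      intro g
      have h1 := hasDerivAt_ge β g e (sF x A)
      rw [sF_insert x hjA] at h1
      have h2 := HasDerivAt.fun_finsetProd (u := univ) fun r _ => hasDerivAt_ge β g e (Φ r)
      refine (h1.mul h2).congr_deriv ?_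
      simp only [update_eq_self, smul_eq_mul, G, T1, T2, T3, a]
      have e1 : ∀ r : Fin m, (∏ r' ∈ univ.erase r, ge β g (Φ r')) *
          (c * (ge β g (fun s => Φ r s * se e s) - ge β g (Φ r) * ge β g (se e)))
          = c * (∏ r', ge β g (Υ r r')) - c * (ge β g (se e) * ∏ r', ge β g (Φ r')) := fun r => by
        have e2 : (∏ r', ge β g (Υ r r'))
            = ge β g (fun s => Φ r s * se e s) * ∏ r' ∈ univ.erase r, ge β g (Φ r') := by
          rw [← mul_prod_erase univ _ (mem_univ r)]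
          refine congrArg₂ (· * ·) (by simp [Υ]) (prod_congr rfl fun r' hr' => ?_)
          simp [Υ, update_of_ne (ne_of_mem_erase hr')]
        rw [e2, ← mul_prod_erase univ (fun r' => ge β g (Φ r')) (mem_univ r)]
        ring
      rw [sum_congr rfl fun r _ => e1 r, sum_sub_distrib]
      simp only [← mul_sum]
      simp only [sum_const, card_univ, Fintype.card_fin, nsmul_eq_mul, Ψ, Fin.prod_univ_succ,
        Fin.cons_zero, Fin.cons_succ, c]
      ring
    rw [ibp_step x hj (f := fun g => ge β g (sF x A) * ∏ r, ge β g (Φ r))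
      ((continuous_ge β _).mul (continuous_prod_ge β Φ)) hGc hder
      (growth_bdd_mul_Mo x _ (C := 1) fun g => by
        rw [abs_mul]
        exact mul_le_one₀ (abs_ge_sF β g x _) (abs_nonneg _) (abs_prod_ge β g Φ hΦ))
      (growth_bdd_mul_Mo x _ hGb)]
    have i1 := integrable_bdd_mul_Mo x (L.erase j) c1 b1
    have i2 := integrable_bdd_mul_Mo x (L.erase j) c2 b2
    have i3 := fun r => integrable_bdd_mul_Mo x (L.erase j) (c3 r) (b3 r)
    have eG : ∀ g, G g * Mo x (L.erase j) g = c * ((T1 g * Mo x (L.erase j) g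
        + ∑ r, T3 r g * Mo x (L.erase j) g) - (1 + m) * (T2 g * Mo x (L.erase j) g)) := fun g => by
      simp only [G, ← sum_mul]; ring
    rw [integral_congr_ae (ae_of_all _ eG), integral_const_mul,
      integral_sub (i1.fun_add (integrable_finsetSum _ fun r _ => i3 r)) (i2.const_mul _),
      integral_add i1 (integrable_finsetSum _ fun r _ => i3 r), integral_const_mul,
      integral_finsetSum _ fun r _ => i3 r, abs_mul]
    have hd' : Disjoint A (L.erase j) := disjoint_of_subset_right (erase_subset _ _) hd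
    have u1 := prod_bound β x l m Φ (insert j A) (L.erase j) hL' hΦ (insert_nonempty _ _)
      (by simp [hjr, hAr]) hLr'
      (disjoint_insert_left.2 ⟨notMem_erase j L, hd'⟩)
    have u2 := prod_bound β x l (m + 1) Ψ A (L.erase j) hL' hΨ hA hAr hLr' hd'
    have u3 := fun r => prod_bound β x l m (Υ r) A (L.erase j) hL' (hΥ r) hA hAr hLr' hd'
    rw [pow_succ', cK]
    have hc : |c| = |β| / √(n : ℝ) := by
      simp only [c, abs_div, abs_of_nonneg (Real.sqrt_nonneg _)]
    rw [hc, mul_assoc (|β| / √(n : ℝ)), mul_assoc (|β| / √(n : ℝ))]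
    refine mul_le_mul_of_nonneg_left ?_ (by positivity)
    have v1 : |∫ g, T1 g * Mo x (L.erase j) g ∂gauss (Edge n)|
        ≤ (|β| / √(n : ℝ)) ^ l * cK l m * Bd β x := u1
    have v2 : |(1 + (m : ℝ)) * ∫ g, T2 g * Mo x (L.erase j) g ∂gauss (Edge n)|
        ≤ (1 + m) * ((|β| / √(n : ℝ)) ^ l * cK l (m + 1) * Bd β x) := by
      rw [abs_mul, abs_of_nonneg (show (0 : ℝ) ≤ 1 + m by positivity)]
      exact mul_le_mul_of_nonneg_left u2 (by positivity)
    have v3 : |∑ r, ∫ g, T3 r g * Mo x (L.erase j) g ∂gauss (Edge n)|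
        ≤ ∑ _r : Fin m, (|β| / √(n : ℝ)) ^ l * cK l m * Bd β x :=
      (abs_sum_le_sum_abs _ _).trans (sum_le_sum fun r _ => u3 r)
    simp only [sum_const, card_univ, Fintype.card_fin, nsmul_eq_mul] at v3
    refine (abs_sub _ _).trans (le_trans
      (add_le_add ((abs_add_le _ _).trans (add_le_add v1 v3)) v2) (le_of_eq ?_))
    push_cast
    ring

lemma lead_bound (β : ℝ) (x : Fin (k + 3) ↪ Fin n) : ∀ (l : ℕ) (A L : Finset (Fin (k + 3))),
    L.card = l → Fin.last (k + 2) ∉ L → Disjoint A L → A ∪ L = univ →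
    |∫ g, ge β g (sF x A) * Mo x L g ∂gauss (Edge n) - (β / √(n : ℝ)) ^ l|
      ≤ (|β| / √(n : ℝ)) ^ l * dK l * Bd β x
  | 0, A, L, hL, _, _, hu => by
    rw [card_eq_zero] at hL
    subst hL
    rw [union_empty] at hu
    subst hu
    simp [Mo, dK, show sF (⇑x) univ = fun _ => (1 : ℝ) from funext (sF_univ x), ge_one]
  | l + 1, A, L, hL, hLr, hd, hu => by
    obtain ⟨j, hj⟩ : L.Nonempty := card_pos.1 (by omega)
    have hjA : j ∉ A := fun h => (disjoint_left.1 hd) h hj
    have hjr : Fin.last (k + 2) ≠ j := fun h => hLr (h ▸ hj)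
    have hL' : (L.erase j).card = l := by rw [card_erase_of_mem hj]; omega
    have hLr' : Fin.last (k + 2) ∉ L.erase j := fun h => hLr (mem_of_mem_erase h)
    have hd' : Disjoint A (L.erase j) := disjoint_of_subset_right (erase_subset _ _) hd
    set c := β / √(n : ℝ) with hc
    set e := ed x j
    set T1 := fun g : Edge n → ℝ => ge β g (sF x (insert j A))
    set T2 := fun g : Edge n → ℝ => ge β g (sF x {j}) * ∏ r : Fin 1, ge β g (![sF x A] r)
    have b2 : ∀ g, |T2 g| ≤ 1 := fun g => by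
      simp only [T2, Fin.prod_univ_one, Matrix.cons_val_zero, abs_mul]
      exact mul_le_one₀ (abs_ge_sF β g x _) (abs_nonneg _) (abs_ge_sF β g x _)
    have b1 : ∀ g, |T1 g| ≤ 1 := fun g => abs_ge_sF β g x _
    have c1 : Continuous T1 := continuous_ge β _
    have c2 : Continuous T2 := (continuous_ge β _).mul (continuous_prod_ge β _)
    have hder : ∀ g, HasDerivAt (fun t => ge β (update g e t) (sF x A))
        (c * (T1 g - T2 g)) (g e) := fun g => by
      have h1 := hasDerivAt_ge β g e (sF x A)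
      rw [sF_insert x hjA, se_eq_sF] at h1
      refine h1.congr_deriv ?_
      simp only [T1, T2, Fin.prod_univ_one, Matrix.cons_val_zero]
      ring
    rw [ibp_step x hj (f := fun g => ge β g (sF x A)) (G := fun g => c * (T1 g - T2 g))
      (continuous_ge β _) (continuous_const.mul (c1.sub c2)) hder
      (growth_bdd_mul_Mo x _ (C := 1) fun g => abs_ge_sF β g x _)
      (growth_bdd_mul_Mo x _ (C := |c| * (1 + 1)) fun g => by
        rw [abs_mul]
        exact mul_le_mul_of_nonneg_left ((abs_sub _ _).trans (add_le_add (b1 g) (b2 g)))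
          (abs_nonneg _))]
    have i1 := integrable_bdd_mul_Mo x (L.erase j) c1 b1
    have i2 := integrable_bdd_mul_Mo x (L.erase j) c2 b2
    have eG : ∀ g, c * (T1 g - T2 g) * Mo x (L.erase j) g
        = c * (T1 g * Mo x (L.erase j) g - T2 g * Mo x (L.erase j) g) := fun g => by ring
    rw [integral_congr_ae (ae_of_all _ eG), integral_const_mul, integral_sub i1 i2]
    have u1 := lead_bound β x l (insert j A) (L.erase j) hL' hLr'
      (disjoint_insert_left.2 ⟨notMem_erase j L, hd'⟩)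
      (by rw [insert_union, ← union_insert, insert_erase hj]; exact hu)
    have u2 := prod_bound β x l 1 ![sF x A] {j} (L.erase j) hL'
      (fun r s => by simp [Fin.fin_one_eq_zero r, abs_sF]) (singleton_nonempty _)
      (by simp [hjr]) hLr' (disjoint_singleton_left.2 (notMem_erase j L))
    rw [pow_succ', pow_succ' (|β| / √(n : ℝ)), dK, Nat.cast_add,
      mul_assoc (|β| / √(n : ℝ)), mul_assoc (|β| / √(n : ℝ))]
    rw [show |β| / √(n : ℝ) = |c| by simp [hc, abs_div, abs_of_nonneg (Real.sqrt_nonneg _)]]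
      at u1 u2 ⊢
    rw [← mul_sub, abs_mul]
    refine mul_le_mul_of_nonneg_left ?_ (abs_nonneg _)
    rw [sub_right_comm, mul_add, add_mul]
    exact (abs_sub _ _).trans (add_le_add u1 u2)

/-- The free energy correlates with every cycle like `(β/√n)^k` when correlations are small. -/
theorem cov_cycle (β : ℝ) (x : Fin (k + 3) ↪ Fin n) :
    |∫ g, F β g * Mo x univ g ∂gauss (Edge n) - (β / √(n : ℝ)) ^ (k + 3)|
      ≤ (|β| / √(n : ℝ)) ^ (k + 3) * dK (k + 2) * Bd β x := by
  set j := Fin.last (k + 2)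
  set c := β / √(n : ℝ) with hc
  have hcard : (univ.erase j).card = k + 2 := by simp
  have b : ∀ g, |c * ge β g (sF x {j})| ≤ |c| := fun g => by
    rw [abs_mul]
    exact mul_le_of_le_one_right (abs_nonneg _) (abs_ge_sF β g x _)
  have hgF : PolyGrowth fun g => F β g * Mo x (univ.erase j) g := by
    obtain ⟨A, m, hA⟩ := growth_F (n := n) β
    refine ⟨A, m + (univ.erase j).card, fun g => ?_⟩
    rw [abs_mul, pow_add, ← mul_assoc]
    exact mul_le_mul (hA g) (abs_Mo_le x _ g) (abs_nonneg _) ((abs_nonneg _).trans (hA g))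
  rw [ibp_step x (mem_univ j) (continuous_F β) (G := fun g => c * ge β g (sF x {j}))
    (continuous_const.mul (continuous_ge β _))
    (fun g => (hasDerivAt_F β g (ed x j)).congr_deriv (by rw [se_eq_sF]))
    hgF (growth_bdd_mul_Mo x _ b)]
  simp only [mul_assoc c]
  rw [integral_const_mul]
  have u := lead_bound β x (k + 2) {j} (univ.erase j) hcard (notMem_erase _ _)
    (disjoint_singleton_left.2 (notMem_erase j univ)) (by ext; simp [eq_or_ne])
  rw [pow_succ', pow_succ' (|β| / √(n : ℝ)), ← mul_sub, abs_mul,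
    mul_assoc (|β| / √(n : ℝ)), mul_assoc (|β| / √(n : ℝ))]
  rw [show |β| / √(n : ℝ) = |c| by simp [hc, abs_div, abs_of_nonneg (Real.sqrt_nonneg _)]] at u ⊢
  exact mul_le_mul_of_nonneg_left u (abs_nonneg _)

end Vale.Agent.P146.Crit
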