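import Vale.Agent.P146.Basic

/-!
# Gibbs averages of the SK model as functions of the disorder
-/

namespace Vale.Agent.P146.Crit

open MeasureTheory ProbabilityTheory Finset Real Function
open Vale.Agent.P150 (gauss PolyGrowth)

variable {n : ℕ}

/-- The spin product along an edge. -/
def se (e : Edge n) (s : Fin n → Bool) : ℝ := spin (s e.1.1) * spin (s e.1.2)

lemma abs_se (e : Edge n) (s : Fin n → Bool) : |se e s| = 1 := by
  simp [se, abs_mul, abs_spin]

lemma se_mul_self (e : Edge n) (s : Fin n → Bool) : se e s * se e s = 1 := by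
  rw [← abs_mul_abs_self, abs_se, one_mul]

/-- Gibbs average. -/
noncomputable def ge (β : ℝ) (g : Edge n → ℝ) (Φ : (Fin n → Bool) → ℝ) : ℝ :=
  (∑ s : Fin n → Bool, Real.exp (β * H g s) * Φ s) / ∑ s : Fin n → Bool, Real.exp (β * H g s)

lemma ge_one (β : ℝ) (g : Edge n → ℝ) : ge β g (fun _ => 1) = 1 := by
  simp only [ge, mul_one]
  exact div_self (sum_exp_pos β g).ne'

lemma abs_ge_le (β : ℝ) (g : Edge n → ℝ) {Φ : (Fin n → Bool) → ℝ} (h : ∀ s, |Φ s| ≤ 1) :
    |ge β g Φ| ≤ 1 := by
  rw [ge, abs_div, abs_of_pos (sum_exp_pos β g), div_le_one (sum_exp_pos β g)]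
  refine (abs_sum_le_sum_abs _ _).trans (sum_le_sum fun s _ => ?_)
  rw [abs_mul, abs_of_pos (Real.exp_pos _)]
  exact mul_le_of_le_one_right (Real.exp_pos _).le (h s)

lemma continuous_ge (β : ℝ) (Φ : (Fin n → Bool) → ℝ) :
    Continuous fun g : Edge n → ℝ => ge β g Φ := by
  have he : ∀ s : Fin n → Bool, Continuous fun g : Edge n → ℝ => Real.exp (β * H g s) :=
    fun s => Real.continuous_exp.comp (continuous_const.mul (continuous_H s))
  exact (continuous_finsetSum _ fun s _ => (he s).mul continuous_const).div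
    (continuous_finsetSum _ fun s _ => he s) fun g => (sum_exp_pos β g).ne'

lemma continuous_F (β : ℝ) : Continuous (F (n := n) β) := by
  rw [show F (n := n) β = fun g => G β g + (n : ℝ) * Real.log 2 from
    funext fun g => (sub_add_cancel _ _).symm]
  exact (continuous_G β).add continuous_const

lemma growth_F (β : ℝ) : PolyGrowth (F (n := n) β) := by
  refine ⟨|β| + n, 1, fun g => ?_⟩
  have h := abs_G_le β g
  have hs : (0 : ℝ) ≤ ∑ e, |g e| := sum_nonneg fun e _ => abs_nonneg _
  have hl0 : 0 ≤ (n : ℝ) * Real.log 2 := mul_nonneg (Nat.cast_nonneg n) (Real.log_nonneg (by norm_num))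
  have hl1 : (n : ℝ) * Real.log 2 ≤ n :=
    mul_le_of_le_one_right (Nat.cast_nonneg n) (by linarith [Real.log_le_sub_one_of_pos (by norm_num : (0:ℝ) < 2)])
  have e : F β g = G β g + (n : ℝ) * Real.log 2 := (sub_add_cancel _ _).symm
  rw [e, pow_one]
  refine (abs_add_le _ _).trans ?_
  rw [abs_of_nonneg hl0]
  have := mul_nonneg (Nat.cast_nonneg n : (0:ℝ) ≤ n) hs
  nlinarith [abs_nonneg β]

/-- Tangent line below the free energy as a function of the inverse temperature. -/
lemma F_tangent (β β' : ℝ) (g : Edge n → ℝ) :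
    F β g + (β' - β) * ge β g (fun s => H g s) ≤ F β' g := by
  set m := ge β g (fun s => H g s)
  set u := (β' - β)
  have hZ := sum_exp_pos β g
  have key : ∑ s : Fin n → Bool, Real.exp (β * H g s) * Real.exp (u * m) ≤
      ∑ s : Fin n → Bool, Real.exp (β' * H g s) := by
    have h1 : ∀ s : Fin n → Bool, Real.exp (β * H g s) * Real.exp (u * m) * (1 + u * (H g s - m))
        ≤ Real.exp (β' * H g s) := fun s => by
      rw [show β' * H g s = (β * H g s + u * m) + u * (H g s - m) by simp only [u]; ring,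
        Real.exp_add (β * H g s + u * m), Real.exp_add]
      exact mul_le_mul_of_nonneg_left (by linarith [Real.add_one_le_exp (u * (H g s - m))])
        (by positivity)
    refine le_trans (le_of_eq ?_) (sum_le_sum fun s _ => h1 s)
    have hm : m * ∑ s : Fin n → Bool, Real.exp (β * H g s) =
        ∑ s : Fin n → Bool, Real.exp (β * H g s) * H g s := div_mul_cancel₀ _ hZ.ne'
    have e : ∀ s : Fin n → Bool, Real.exp (β * H g s) * Real.exp (u * m) * (1 + u * (H g s - m))
        = Real.exp (u * m) * ((1 - u * m) * Real.exp (β * H g s) +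
          u * (Real.exp (β * H g s) * H g s)) := fun s => by ring
    rw [← sum_mul, sum_congr rfl fun s _ => e s, ← mul_sum, sum_add_distrib, ← mul_sum, ← mul_sum,
      ← hm]
    ring
  have h2 := Real.log_le_log (sum_pos (fun s _ => mul_pos (Real.exp_pos _) (Real.exp_pos _))
    univ_nonempty) key
  rw [← sum_mul, Real.log_mul hZ.ne' (Real.exp_pos _).ne', Real.log_exp] at h2
  exact h2

lemma F_zero (g : Edge n → ℝ) : F 0 g = n * Real.log 2 := by
  simp [F]

lemma H_update (g : Edge n → ℝ) (e : Edge n) (x : ℝ) (s : Fin n → Bool) :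
    H (update g e x) s = H g s + (x - g e) * (se e s / √(n : ℝ)) := by
  have key : ∑ e', update g e x e' * spin (s e'.1.1) * spin (s e'.1.2) -
      ∑ e', g e' * spin (s e'.1.1) * spin (s e'.1.2) = (x - g e) * se e s := by
    rw [← sum_sub_distrib, sum_eq_single e]
    · simp [se]; ring
    · intro b _ hb; simp [update_of_ne hb]
    · simp
  simp only [H]
  linear_combination (1 / √(n : ℝ)) * key

lemma hasDerivAt_exp_H (β : ℝ) (g : Edge n → ℝ) (e : Edge n) (s : Fin n → Bool) :
    HasDerivAt (fun x => Real.exp (β * H (update g e x) s))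
      (β / √(n : ℝ) * (Real.exp (β * H g s) * se e s)) (g e) := by
  have h1 : HasDerivAt (fun x : ℝ => β * (H g s + (x - g e) * (se e s / √(n : ℝ))))
      (β * (1 * (se e s / √(n : ℝ)))) (g e) :=
    ((((hasDerivAt_id (g e)).sub_const (g e)).mul_const _).const_add _).const_mul β
  have h2 := h1.exp
  simp only [H_update]
  refine h2.congr_deriv ?_
  simp only [sub_self, zero_mul, add_zero]
  ring

lemma hasDerivAt_ge (β : ℝ) (g : Edge n → ℝ) (e : Edge n) (Φ : (Fin n → Bool) → ℝ) :
    HasDerivAt (fun x => ge β (update g e x) Φ)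
      (β / √(n : ℝ) * (ge β g (fun s => Φ s * se e s) - ge β g Φ * ge β g (se e))) (g e) := by
  have hnum := HasDerivAt.fun_sum (u := univ)
    fun s _ => (hasDerivAt_exp_H β g e s).mul_const (Φ s)
  have hden := HasDerivAt.fun_sum (u := univ) fun s _ => hasDerivAt_exp_H β g e s
  have hz : (∑ s : Fin n → Bool, Real.exp (β * H (update g e (g e)) s)) ≠ 0 :=
    (sum_exp_pos β _).ne'
  refine (hnum.div hden hz).congr_deriv ?_
  simp only [update_eq_self, ge]
  have e1 : ∀ s : Fin n → Bool, β / √(n : ℝ) * (Real.exp (β * H g s) * se e s) * Φ s =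
      β / √(n : ℝ) * (Real.exp (β * H g s) * (Φ s * se e s)) := fun s => by ring
  rw [sum_congr rfl fun s _ => e1 s, ← mul_sum, ← mul_sum]
  have := (sum_exp_pos β g).ne'
  field_simp

lemma hasDerivAt_F (β : ℝ) (g : Edge n → ℝ) (e : Edge n) :
    HasDerivAt (fun x => F β (update g e x)) (β / √(n : ℝ) * ge β g (se e)) (g e) := by
  have hden := HasDerivAt.fun_sum (u := univ) fun s _ => hasDerivAt_exp_H β g e s
  refine (hden.log (sum_exp_pos β _).ne').congr_deriv ?_
  simp only [update_eq_self, ge, ← mul_sum]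
  ring

lemma growth_bounded {f : (Edge n → ℝ) → ℝ} {C : ℝ} (h : ∀ g, |f g| ≤ C) : PolyGrowth f :=
  ⟨C, 0, fun g => by simpa using h g⟩

lemma integrable_bounded {f : (Edge n → ℝ) → ℝ} (hc : Continuous f) {C : ℝ} (h : ∀ g, |f g| ≤ C) :
    Integrable f (gauss (Edge n)) :=
  (growth_bounded h).integrable hc

/-- A sum over ordered pairs in terms of a sum over edges. -/
lemma sum_pairs (a : Fin n → Fin n → ℝ) (hs : ∀ u v, a u v = a v u) :
    ∑ u, ∑ v, a u v = ∑ u, a u u + 2 * ∑ e : Edge n, a e.1.1 e.1.2 := by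
  have h1 : ∀ u v : Fin n, a u v = (if u = v then a u v else 0) + (if u < v then a u v else 0)
      + (if v < u then a u v else 0) := fun u v => by
    rcases lt_trichotomy u v with h | h | h
    · simp [h, h.ne, h.not_gt]
    · subst h; simp
    · simp [h, h.ne', h.not_gt]
  rw [sum_congr rfl fun u _ => sum_congr rfl fun v _ => h1 u v]
  simp only [sum_add_distrib]
  have e2 : ∑ u, ∑ v, (if u < v then a u v else 0) = ∑ e : Edge n, a e.1.1 e.1.2 := by
    rw [← Fintype.sum_prod_type' (f := fun u v : Fin n => if u < v then a u v else 0), ← sum_filter]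
    exact sum_subtype _ (fun p => by simp) fun p : Fin n × Fin n => a p.1 p.2
  have e3 : ∑ u, ∑ v, (if v < u then a u v else 0) = ∑ u, ∑ v, (if u < v then a u v else 0) := by
    rw [sum_comm]
    exact sum_congr rfl fun u _ => sum_congr rfl fun v _ => by rw [hs v u]
  have e4 : ∑ u : Fin n, ∑ v, (if u = v then a u v else 0) = ∑ u, a u u := by simp
  rw [e3, e2, e4]
  ring

lemma two_card_edge : 2 * (Fintype.card (Edge n) : ℝ) = (n : ℝ) * n - n := by
  have h := sum_pairs (n := n) (fun _ _ => (1 : ℝ)) fun _ _ => rfl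
  simp at h
  linarith

/-- Mean squared overlap of two replicas, for fixed disorder. -/
noncomputable def qg (β : ℝ) (g : Edge n → ℝ) : ℝ :=
  (∑ u, ∑ v, ge β g (fun s => spin (s u) * spin (s v)) ^ 2) / (n : ℝ) ^ 2

/-- Its disorder average. -/
noncomputable def Q (n : ℕ) (β : ℝ) : ℝ := ∫ g, qg (n := n) β g ∂gauss (Edge n)

lemma continuous_qg (β : ℝ) : Continuous (qg (n := n) β) :=
  (continuous_finsetSum _ fun _ _ => continuous_finsetSum _ fun _ _ =>
    (continuous_ge β _).pow 2).div_const _

lemma qg_bounds (β : ℝ) (g : Edge n → ℝ) : 0 ≤ qg β g ∧ qg β g ≤ 1 := by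
  refine ⟨by unfold qg; positivity, div_le_one_of_le₀ ?_ (by positivity)⟩
  refine (sum_le_sum fun u _ => sum_le_sum (g := fun _ => (1 : ℝ)) fun v _ => ?_).trans
    (le_of_eq (by simp [sq]))
  rw [← sq_abs]
  exact pow_le_one₀ (abs_nonneg _) (abs_ge_le β g fun s => by simp [abs_mul, abs_spin])

lemma integrable_qg (β : ℝ) : Integrable (qg (n := n) β) (gauss (Edge n)) :=
  integrable_bounded (continuous_qg β) fun g => by
    rw [abs_of_nonneg (qg_bounds β g).1]; exact (qg_bounds β g).2

lemma Q_bounds (n : ℕ) (β : ℝ) : 0 ≤ Q n β ∧ Q n β ≤ 1 := by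
  refine ⟨integral_nonneg fun g => (qg_bounds β g).1, ?_⟩
  refine (integral_mono (integrable_qg β) (integrable_const 1) fun g => (qg_bounds β g).2).trans ?_
  simp

/-- The Gibbs energy. -/
noncomputable def En (β : ℝ) (g : Edge n → ℝ) : ℝ := ge β g (fun s => H g s)

lemma En_eq (β : ℝ) (g : Edge n → ℝ) :
    En β g = (1 / √(n : ℝ)) * ∑ e, g e * ge β g (se e) := by
  have h1 : ∀ s : Fin n → Bool, Real.exp (β * H g s) * H g s
      = (1 / √(n : ℝ)) * ∑ e, g e * (Real.exp (β * H g s) * se e s) := fun s => by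
    simp only [H, mul_sum, se]
    exact sum_congr rfl fun e _ => by ring
  simp only [En, ge]
  rw [sum_congr rfl fun s _ => h1 s, ← mul_sum, sum_comm, mul_div_assoc, sum_div]
  congr 1
  exact sum_congr rfl fun e _ => by rw [← mul_sum, mul_div_assoc]

lemma integrable_coord_mul (e : Edge n) {f : (Edge n → ℝ) → ℝ} (hc : Continuous f)
    (h : ∀ g, |f g| ≤ 1) : Integrable (fun g => g e * f g) (gauss (Edge n)) := by
  refine PolyGrowth.integrable ⟨1, 1, fun g => ?_⟩ ((continuous_apply e).mul hc)
  rw [one_mul, pow_one, abs_mul]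
  have := single_le_sum (f := fun q => |g q|) (fun q _ => abs_nonneg _) (mem_univ e)
  exact (mul_le_of_le_one_right (abs_nonneg _) (h g)).trans (by linarith)

lemma integrable_En (β : ℝ) : Integrable (En (n := n) β) (gauss (Edge n)) := by
  simp only [funext (En_eq (n := n) β)]
  exact (integrable_finsetSum _ fun e _ => integrable_coord_mul e (continuous_ge β _)
    fun g => abs_ge_le β g fun s => (abs_se e s).le).const_mul _

lemma ge_sq_eq (β : ℝ) (g : Edge n → ℝ) (e : Edge n) :
    ge β g (fun s => se e s * se e s) = 1 := by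
  simp only [se_mul_self, ge_one]

/-- The mean energy in terms of the mean squared overlap. -/
theorem integral_En (β : ℝ) :
    ∫ g, En (n := n) β g ∂gauss (Edge n) = β * n * (1 - Q n β) / 2 := by
  rcases Nat.eq_zero_or_pos n with rfl | hn
  · simp [funext (En_eq (n := 0) β)]
  have hn' : (0 : ℝ) < n := Nat.cast_pos.2 hn
  set μ := gauss (Edge n)
  have hone : ∀ (e : Edge n) (g : Edge n → ℝ), |ge β g (se e)| ≤ 1 := fun e g =>
    abs_ge_le β g fun s => (abs_se e s).le
  have hsq : ∀ e : Edge n, Integrable (fun g => ge β g (se e) ^ 2) μ := fun e =>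
    integrable_bounded ((continuous_ge β _).pow 2) fun g => by
      rw [abs_pow]; exact pow_le_one₀ (abs_nonneg _) (hone e g)
  have hibp : ∀ e : Edge n, ∫ g, g e * ge β g (se e) ∂μ =
      β / √(n : ℝ) * (1 - ∫ g, ge β g (se e) ^ 2 ∂μ) := fun e => by
    rw [Vale.Agent.P150.gauss_ibp e (continuous_ge β (se e))
      (G := fun g => β / √(n : ℝ) * (1 - ge β g (se e) ^ 2))
      (continuous_const.mul (continuous_const.sub ((continuous_ge β _).pow 2)))
      (fun g => (hasDerivAt_ge β g e (se e)).congr_deriv (by rw [ge_sq_eq, sq]))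
      (growth_bounded (hone e))
      (growth_bounded (C := |β / √(n : ℝ)|) fun g => by
        rw [abs_mul]
        refine mul_le_of_le_one_right (abs_nonneg _) ?_
        have := abs_le.1 (hone e g)
        rw [abs_le]; constructor <;> nlinarith)]
    rw [integral_const_mul, integral_sub (integrable_const _) (hsq e)]
    simp
  have e1 : ∫ g, En β g ∂μ = β / n * ∑ e : Edge n, (1 - ∫ g, ge β g (se e) ^ 2 ∂μ) := by
    simp only [funext (En_eq (n := n) β)]
    rw [integral_const_mul, integral_finsetSum _ fun e _ => integrable_coord_mul e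
      (continuous_ge β _) (hone e), sum_congr rfl fun e _ => hibp e, ← mul_sum, ← mul_assoc]
    congr 1
    rw [div_mul_div_comm, one_mul, Real.mul_self_sqrt hn'.le]
  have e2 : Q n β * (n : ℝ) ^ 2 = n + 2 * ∑ e : Edge n, ∫ g, ge β g (se e) ^ 2 ∂μ := by
    have h : ∀ g, qg β g * (n : ℝ) ^ 2 = n + 2 * ∑ e : Edge n, ge β g (se e) ^ 2 := fun g => by
      rw [qg, div_mul_cancel₀ _ (by positivity), sum_pairs
        (fun u v => ge β g (fun s => spin (s u) * spin (s v)) ^ 2) fun u v => by simp [mul_comm]]
      congr 1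
      simp [← sq, spin_sq, ge_one]
    rw [Q, ← integral_mul_const, integral_congr_ae (ae_of_all _ h),
      integral_add (integrable_const _) ((integrable_finsetSum _ fun e _ => hsq e).const_mul 2),
      integral_const_mul, integral_finsetSum _ fun e _ => hsq e]
    simp [μ]
  rw [e1, sum_sub_distrib]
  simp only [sum_const, card_univ, nsmul_eq_mul, mul_one]
  have e3 := two_card_edge (n := n)
  field_simp
  linear_combination (β : ℝ) * (e3 + e2)

lemma integrable_F (β : ℝ) : Integrable (F (n := n) β) (gauss (Edge n)) :=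
  (growth_F β).integrable (continuous_F β)

/-- The mean free energy lies above its tangents. -/
lemma mean_tangent (β β' : ℝ) :
    (∫ g, F (n := n) β g ∂gauss (Edge n)) + (β' - β) * (β * n * (1 - Q n β) / 2)
      ≤ ∫ g, F (n := n) β' g ∂gauss (Edge n) := by
  rw [← integral_En, ← integral_const_mul, ← integral_add (integrable_F β)
    ((integrable_En β).const_mul _)]
  exact integral_mono ((integrable_F β).add ((integrable_En β).const_mul _)) (integrable_F β')
    fun g => F_tangent β β' g

/-- Monotonicity of the energy in the inverse temperature. -/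
lemma energy_mono {b β : ℝ} (h : b < β) : b * (1 - Q n b) * n ≤ β * (1 - Q n β) * n := by
  have h1 := mean_tangent (n := n) b β
  have h2 := mean_tangent (n := n) β b
  have : 0 ≤ (β - b) * (β * n * (1 - Q n β) / 2 - b * n * (1 - Q n b) / 2) := by linarith
  have := (mul_nonneg_iff_of_pos_left (sub_pos.2 h)).1 this
  linarith

end Vale.Agent.P146.Crit
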